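import Vale.Agent.P275OM.Cw

/-!
# P275 (helper20): linear algebra at a point of `Rt`.
-/

set_option linter.all false

open Matrix Module

namespace Vale.Agent.P275OM

open P275BC hiding mt
open P275BC.HG

variable {n g : ℕ} {x u v : Ix n g → ℂ} {t : Fin n → ℂ}

theorem un_val {M : Mx n} (h : M.det ≠ 0) : ((un M : GL (Fin n) ℂ) : Mx n) = M := by
  have hu : IsUnit M := (Matrix.isUnit_iff_isUnit_det M).2 (isUnit_iff_ne_zero.2 h)
  rw [un, dif_pos hu, hu.unit_spec]

theorem un_inv {M : Mx n} (h : M.det ≠ 0) : (((un M)⁻¹ : GL (Fin n) ℂ) : Mx n) = M⁻¹ := by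
  rw [Matrix.coe_units_inv, un_val h]

/-- the generators as units -/
noncomputable def ux (x : Ix n g → ℂ) (k : Fin g) (e : Bool) : GL (Fin n) ℂ := un (P275BC.mt x k e)

theorem mu_eq (hx : ∀ k e, (P275BC.mt x k e).det ≠ 0) :
    mu x = ((cw (ux x) : GL (Fin n) ℂ) : Mx n) := by
  rw [cw, ← Units.coeHom_apply, map_list_prod, List.map_ofFn, mu]
  congr 2
  funext k
  simp only [Function.comp, hd, ux, map_mul, Units.coeHom_apply, un_val (hx _ _), un_inv (hx _ _)]

theorem det_ne (hx : x ∈ Rt g t) (k : Fin g) (e : Bool) : (P275BC.mt x k e).det ≠ 0 := by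
  rw [hx.1]; exact one_ne_zero

section irr

variable (E : Submodule ℂ (Fin n → ℂ))

/-- the stabiliser of a subspace -/
def St : Subgroup (GL (Fin n) ℂ) where
  carrier := {h | ∀ w, w ∈ E ↔ (h : Mx n) *ᵥ w ∈ E}
  one_mem' w := by rw [Units.val_one, one_mulVec]
  mul_mem' {h h'} a b w := by rw [Units.val_mul, ← mulVec_mulVec, ← a, ← b]
  inv_mem' {h} a w := by rw [a (_ *ᵥ w), mulVec_mulVec, Units.mul_inv, one_mulVec]

variable {E}

theorem mem_St {h : GL (Fin n) ℂ} (a : ∀ w ∈ E, (h : Mx n) *ᵥ w ∈ E) : h ∈ St E := fun w => by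
  refine ⟨a w, fun hw => ?_⟩
  have inj : Function.Injective fun w : Fin n → ℂ => (h : Mx n) *ᵥ w := fun w w' e => by
    have := congrArg (fun y => ((h⁻¹ : GL (Fin n) ℂ) : Mx n) *ᵥ y) e
    simpa only [mulVec_mulVec, Units.inv_mul, one_mulVec] using this
  obtain ⟨y, hy⟩ := LinearMap.surjective_of_injective
    (f := (Matrix.toLin' (h : Mx n)).restrict (p := E) (q := E) a)
    (fun y y' e => Subtype.ext (inj (congrArg Subtype.val e))) ⟨_, hw⟩
  rw [← inj (congrArg Subtype.val hy : (h : Mx n) *ᵥ y.1 = (h : Mx n) *ᵥ w)]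
  exact y.2

/-- the last nonzero coordinate -/
def Pv (w : Fin n → ℂ) (a : Fin n) : Prop := w a ≠ 0 ∧ ∀ c, a < c → w c = 0

theorem exists_pv {w : Fin n → ℂ} (h : w ≠ 0) : ∃ a, Pv w a := by
  classical
  obtain ⟨a, ha⟩ := Function.ne_iff.1 h
  obtain ⟨b, hb, hm⟩ := (Finset.univ.filter fun c => w c ≠ 0).exists_max_image id ⟨a, by simpa using ha⟩
  exact ⟨b, by simpa using hb, fun c hc => by_contra fun e => (hm c (by simpa using e)).not_gt hc⟩

/-- coordinates on a subspace given by the pivots -/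
theorem exists_chart (E : Submodule ℂ (Fin n → ℂ)) : ∃ (s : Finset (Fin n)) (V : s → Fin n → ℂ),
    (∀ a, V a ∈ E ∧ (∀ b : s, V a b = if b = a then 1 else 0) ∧ ∀ c, a.1 < c → V a c = 0) ∧
      ∀ w ∈ E, w = ∑ a : s, w a • V a := by
  classical
  obtain ⟨s, hs⟩ : ∃ s : Finset (Fin n), ∀ a, a ∈ s ↔ ∃ w ∈ E, Pv w a :=
    ⟨Finset.univ.filter fun a => ∃ w ∈ E, Pv w a, fun a => by simp⟩
  have z : ∀ w ∈ E, (∀ b : s, w b = 0) → w = 0 := fun w hw h => by_contra fun e => by
    obtain ⟨a, ha⟩ := exists_pv e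
    exact ha.1 (h ⟨a, (hs a).2 ⟨w, hw, ha⟩⟩)
  choose W hW hP using fun a : s => (hs a).1 a.2
  have hd : (Matrix.of fun b a : s => W a b).det ≠ 0 := by
    rw [det_of_isUpperTriangular (M := Matrix.of fun b a : s => W a b) fun b a h => (hP a).2 b h]
    exact Finset.prod_ne_zero_iff.2 fun a _ => (hP a).1
  have ex : ∀ a : s, ∃ y ∈ E, ∀ b : s, y b = if b = a then 1 else 0 := fun a => by
    refine ⟨∑ c, (Matrix.of fun b a : s => W a b)⁻¹ c a • W c,
      sum_mem fun c _ => E.smul_mem _ (hW c), fun b => ?_⟩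
    have := congrFun (congrFun (mul_nonsing_inv _ (isUnit_iff_ne_zero.2 hd)) b) a
    rw [mul_apply, one_apply] at this
    rw [← this, Finset.sum_apply]
    exact Finset.sum_congr rfl fun c _ => mul_comm _ _
  choose V h1 h2 using ex
  refine ⟨s, V, fun a => ⟨h1 a, h2 a, ?_⟩, fun w hw => ?_⟩
  · obtain ⟨b, hb⟩ := exists_pv (w := V a) fun e => by simpa [e] using h2 a a
    have hb' := h2 a ⟨b, (hs b).2 ⟨_, h1 a, hb⟩⟩
    split_ifs at hb' with e
    · exact e ▸ hb.2
    · exact absurd hb' hb.1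
  · refine sub_eq_zero.1 (z _ (sub_mem hw (sum_mem fun a _ => E.smul_mem _ (h1 a))) fun b => ?_)
    simp [Finset.sum_apply, h2]

/-- generic eigenvalues: the tuple is irreducible -/
theorem irr (ht : Gnc t) (hx : x ∈ Rt g t) (E : Submodule ℂ (Fin n → ℂ))
    (hE : ∀ k b, ∀ w ∈ E, P275BC.mt x k b *ᵥ w ∈ E) : E = ⊥ ∨ E = ⊤ := by
  classical
  obtain ⟨s, V, hV, hw⟩ := exists_chart E
  let ρ : St E →* Matrix s s ℂ :=
    { toFun := fun h => Matrix.of fun b a => ((h.1 : Mx n) *ᵥ V a) b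
      map_one' := by
        ext b a
        simp [(hV a).2.1, one_apply]
      map_mul' := fun h h' => by
        ext b a
        rw [of_apply, Subgroup.coe_mul, Units.val_mul, ← mulVec_mulVec,
          hw _ ((h'.2 _).1 (hV a).1), mulVec_sum, Finset.sum_apply, mul_apply]
        exact Finset.sum_congr rfl fun c _ => by
          rw [mulVec_smul, Pi.smul_apply, smul_eq_mul, mul_comm]; rfl }
  have hu : ∀ k e, ux x k e ∈ St E := fun k e => mem_St (by
    rw [ux, un_val (det_ne hx k e)]; exact hE k e)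
  have h1 := map_cw (detMonoidHom.comp ρ).toHomUnits fun k e => ⟨ux x k e, hu k e⟩
  rw [cw_comm] at h1
  have h2 : ((cw fun k e => (⟨ux x k e, hu k e⟩ : St E)).1 : Mx n) = mu x := by
    rw [mu_eq (det_ne hx)]
    exact congrArg _ (map_cw (St E).subtype _)
  have h3 : (Matrix.of fun b a : s => (mu x *ᵥ V a) b).det = 1 := by
    rw [← h2]; exact congrArg Units.val h1
  have h4 : ∀ a b : s, a ≤ b → (mu x *ᵥ V a) b = mu x b b * V a b := fun a b h => by
    refine Finset.sum_eq_single (s := Finset.univ) (f := fun c => mu x b c * V a c) b.1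
      (fun c _ hc => ?_) (by simp)
    rcases lt_or_gt_of_ne hc with e | e
    · rw [hx.2.1 _ _ e, zero_mul]
    · rw [(hV a).2.2 c (lt_of_le_of_lt h e), mul_zero]
  rw [det_of_isUpperTriangular fun b a h => by
    rw [of_apply, h4 a b (le_of_lt h), (hV a).2.2 b h, mul_zero]] at h3
  simp only [of_apply, h4 _ _ le_rfl, (hV _).2.1, if_true, mul_one, hx.2.2] at h3
  rw [Finset.prod_coe_sort s t] at h3
  by_cases e : s = Finset.univ
  · refine Or.inr (eq_top_iff.2 fun w _ => ?_)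
    have : w = ∑ a : s, w a • V a := funext fun b => by
      have hb : b ∈ s := e ▸ Finset.mem_univ b
      have := fun a => (hV a).2.1 ⟨b, hb⟩
      simp [Finset.sum_apply, this]
    exact this ▸ sum_mem fun a _ => E.smul_mem _ (hV a).1
  · refine Or.inl (eq_bot_iff.2 fun w h => ?_)
    have : s = ∅ := by_contra fun e' => ht.2 s (Finset.nonempty_iff_ne_empty.2 e') e h3
    subst this
    rw [hw w h]
    simp

/-- Schur -/
theorem schur (hn : 0 < n) (hx : x ∈ Irr n g) (M : Mx n)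
    (hM : ∀ k b, M * P275BC.mt x k b = P275BC.mt x k b * M) : ∃ c : ℂ, M = c • (1 : Mx n) := by
  haveI : Nonempty (Fin n) := ⟨⟨0, hn⟩⟩
  obtain ⟨c, hc⟩ := Module.End.exists_eigenvalue (Matrix.toLin' M)
  refine ⟨c, ?_⟩
  have := (hx (Module.End.eigenspace (Matrix.toLin' M) c) fun k b w hw => by
    rw [Module.End.mem_eigenspace_iff, Matrix.toLin'_apply] at hw ⊢
    rw [mulVec_mulVec, hM, ← mulVec_mulVec, hw, mulVec_smul]).resolve_left hc
  refine Matrix.toLin'.injective (LinearMap.ext fun w => ?_)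
  have hw : w ∈ Module.End.eigenspace (Matrix.toLin' M) c := this ▸ trivial
  rw [Module.End.mem_eigenspace_iff.1 hw, Matrix.toLin'_apply, smul_mulVec, one_mulVec]

end irr

/-- traceless jets -/
noncomputable def Tl : Subgroup (HG n) where
  carrier := {F | trace F.a = 0}
  one_mem' := by simp
  mul_mem' {F G} a b := by
    change trace (F.a + ad F.g G.a) = 0
    rw [trace_add, tr_ad, show trace F.a = 0 from a, show trace G.a = 0 from b, add_zero]
  inv_mem' {F} a := by
    change trace (-ad F.g⁻¹ F.a) = 0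
    rw [trace_neg, tr_ad, show trace F.a = 0 from a, neg_zero]

/-- coboundaries -/
noncomputable def Cb (ξ : Mx n) : Subgroup (HG n) where
  carrier := {F | F.a = ξ - ad F.g ξ}
  one_mem' := by simp [ad_one]
  mul_mem' {F G} a b := by
    change F.a + ad F.g G.a = ξ - ad (F.g * G.g) ξ
    rw [show F.a = _ from a, show G.a = _ from b, ad_sub, ad_mul, sub_add_sub_cancel]
  inv_mem' {F} a := by
    change -ad F.g⁻¹ F.a = ξ - ad F.g⁻¹ ξ
    rw [show F.a = _ from a, ad_sub, ad_inv_ad, neg_sub]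

/-- the centraliser -/
noncomputable def Ce (ξ : Mx n) : Subgroup (GL (Fin n) ℂ) where
  carrier := {h | ad h ξ = ξ}
  one_mem' := ad_one ξ
  mul_mem' {h h'} a b := by
    change ad (h * h') ξ = ξ
    rw [ad_mul, show ad h' ξ = ξ from b]; exact a
  inv_mem' {h} a := by
    change ad h⁻¹ ξ = ξ
    rw [← show ad h ξ = ξ from a, ad_inv_ad]; exact a.symm

theorem tr_dmu (x u : Ix n g → ℂ) : trace (dmu x u) = 0 := by
  have : (traceLinearMap (Fin n) ℂ ℂ).comp (dmuL x) = 0 := ext_sg fun k e N => by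
    change trace (dmu x (sg k e N)) = 0
    rw [(om_sg x 0 k e N rfl).1, trace_sub, tr_ad (dg x k e), sub_self]
  exact LinearMap.congr_fun this u

theorem eq_zero_of_tr {Y : Mx n} (h : ∀ η : Mx n, trace (η * Y) = 0) : Y = 0 := by
  ext a c
  simpa [trace_single_mul] using h (Matrix.single c a 1)

theorem exists_sg (hx : ∀ k e, (P275BC.mt x k e).det ≠ 0) (k : Fin g) (e : Bool) (ζ : Mx n) :
    ∃ N, ζ = ad (dg x k e) (ad (fg x k e) (N * (P275BC.mt x k e)⁻¹)) :=
  ⟨ad (fg x k e)⁻¹ (ad (dg x k e)⁻¹ ζ) * P275BC.mt x k e, by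
    rw [mul_nonsing_inv_cancel_right _ _ (isUnit_iff_ne_zero.2 (hx k e)), ad_ad_inv, ad_ad_inv]⟩

/-- pairs `a ≤ c` -/
abbrev Tr (n : ℕ) : Type := {p : Fin n × Fin n // p.1 ≤ p.2}

theorem card_Tr (n : ℕ) : 2 * Fintype.card (Tr n) = n * (n + 1) := by
  rw [← Fintype.card_congr (Sym2.sortEquiv (α := Fin n)), Sym2.card, Fintype.card_fin,
    Nat.choose_two_right, Nat.add_sub_cancel, Nat.mul_div_cancel' (by
      rw [mul_comm]; exact (Nat.even_mul_succ_self n).two_dvd), mul_comm]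

/-- upper triangular matrices -/
noncomputable def up (n : ℕ) : (Tr n → ℂ) →ₗ[ℂ] Mx n where
  toFun y := Matrix.of fun a c => if h : a ≤ c then y ⟨(a, c), h⟩ else 0
  map_add' y y' := by ext a c; by_cases h : a ≤ c <;> simp [h]
  map_smul' r y := by ext a c; by_cases h : a ≤ c <;> simp [h]

theorem up_low (y : Tr n → ℂ) {a c : Fin n} (h : c < a) : up n y a c = 0 := dif_neg h.not_ge

theorem up_eq (y : Tr n → ℂ) (p : Tr n) : up n y p.1.1 p.1.2 = y p := dif_pos p.2

theorem exists_up {ξ : Mx n} (h : ∀ a c, c < a → ξ a c = 0) : ∃ y, up n y = ξ :=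
  ⟨fun p => ξ p.1.1 p.1.2, by
    ext a c
    by_cases e : a ≤ c
    · exact dif_pos e
    · rw [up_low _ (not_le.1 e), h a c (not_le.1 e)]⟩

theorem tr_up {ξ m : Mx n} (h : ∀ a c, c < a → ξ a c = 0) (hm : ∀ a c, c ≤ a → m a c = 0) :
    trace (ξ * m) = 0 :=
  Finset.sum_eq_zero fun a _ => by
    rw [diag_apply, mul_apply]
    refine Finset.sum_eq_zero fun c _ => ?_
    rcases lt_or_ge c a with e | e
    · rw [h a c e, zero_mul]
    · rw [hm c a e, mul_zero]

/-- the traces of the logarithmic derivatives of the generators -/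
noncomputable def tg (x : Ix n g → ℂ) (p : Fin g × Bool) : Dual ℂ (Ix n g → ℂ) :=
  mkL (fun u => trace (P275BC.mt u p.1 p.2 * (P275BC.mt x p.1 p.2)⁻¹)) fun c v w => by
    change trace ((c • P275BC.mt v _ _ + P275BC.mt w _ _) * _) = _
    rw [Matrix.add_mul, Matrix.smul_mul, trace_add, trace_smul]

/-- the equations of the tangent space -/
noncomputable def eqs (x : Ix n g → ℂ) :
    ((Fin g × Bool → ℂ) × (Tr n → ℂ)) →ₗ[ℂ] Dual ℂ (Ix n g → ℂ) :=
  (Fintype.linearCombination ℂ (tg x)).coprod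
    (mkL (fun y => (traceLinearMap (Fin n) ℂ ℂ).comp ((LinearMap.mulLeft ℂ (up n y)).comp (dmuL x)))
      fun c v w => LinearMap.ext fun u => by
        change trace (up n (c • v + w) * dmu x u) =
          c • trace (up n v * dmu x u) + trace (up n w * dmu x u)
        rw [map_add, map_smul, Matrix.add_mul, Matrix.smul_mul, trace_add, trace_smul])

theorem eqs_apply (x u : Ix n g → ℂ) (l : Fin g × Bool → ℂ) (y : Tr n → ℂ) :
    eqs x (l, y) u = ∑ p, l p * tg x p u + trace (up n y * dmu x u) := by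
  simp only [eqs, LinearMap.coprod_apply, LinearMap.add_apply, Fintype.linearCombination_apply,
    LinearMap.sum_apply, LinearMap.smul_apply, smul_eq_mul]
  rfl

theorem eqs_sg (x : Ix n g → ℂ) (l : Fin g × Bool → ℂ) (y : Tr n → ℂ) (k : Fin g) (e : Bool)
    (N : Mx n) : eqs x (l, y) (sg k e N) =
      trace (ad (dg x k e) (ad (fg x k e) (N * (P275BC.mt x k e)⁻¹)) *
        (l (k, e) • (1 : Mx n) + ad (dg x k e) (up n y) - up n y)) := by
  rw [eqs_apply, Finset.sum_eq_single (k, e) (fun p _ hp => ?_) (by simp), (om_sg x 0 k e N rfl).1]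
  · change l (k, e) * trace (P275BC.mt (sg k e N) k e * _) + _ = _
    simp only [mt_sg, Matrix.mul_sub, Matrix.mul_add, trace_sub, trace_add, Matrix.mul_smul,
      Matrix.mul_one, trace_smul, smul_eq_mul, tr_ad, tr_ad_ad]
    rw [trace_mul_comm (up n y), trace_mul_comm (up n y)]
    ring
  · change l p * trace (P275BC.mt (sg k e N) p.1 p.2 * _) = 0
    rw [mt_sg_ne N fun h => hp (Prod.ext h.1 h.2), Matrix.zero_mul, trace_zero, mul_zero]

/-- the tangent space -/
noncomputable def tv (x : Ix n g → ℂ) : Submodule ℂ (Ix n g → ℂ) :=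
  (LinearMap.range (eqs x)).dualCoannihilator

theorem mem_tv : u ∈ tv x ↔ V1 x u := by
  rw [tv, Submodule.mem_dualCoannihilator]
  refine ⟨fun h => ⟨fun k e => ?_, fun a c hc => ?_⟩, ?_⟩
  · have := h _ ⟨(Pi.single (k, e) 1, 0), rfl⟩
    rw [eqs_apply, map_zero, Matrix.zero_mul, trace_zero, add_zero, Finset.sum_eq_single (k, e)
      (fun p _ hp => by rw [Pi.single_eq_of_ne hp, zero_mul]) (by simp), Pi.single_eq_same,
      one_mul] at this
    exact this
  · obtain ⟨y, hy⟩ := exists_up (ξ := Matrix.single c a (1 : ℂ)) fun a' c' h =>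
      single_apply_of_ne _ _ _ _ _ fun e => (e.1 ▸ e.2 ▸ hc).not_gt h
    have := h _ ⟨(0, y), rfl⟩
    rw [eqs_apply, hy, trace_single_mul] at this
    change dmu x u a c = 0
    simpa using this
  · rintro ⟨h1, h2⟩ _ ⟨⟨l, y⟩, rfl⟩
    rw [eqs_apply, tr_up (m := dmu x u) (fun a c => up_low y) h2, add_zero]
    exact Finset.sum_eq_zero fun p _ => by rw [show tg x p u = 0 from h1 p.1 p.2, mul_zero]

theorem comm_of_Ce (hx : ∀ k e, (P275BC.mt x k e).det ≠ 0) {ξ : Mx n}
    (h : ∀ k e, ad (dg x k e) ξ = ξ) (k : Fin g) (e : Bool) :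
    ξ * P275BC.mt x k e = P275BC.mt x k e * ξ := by
  have h1 : ad (ux x k e) ξ = ξ := mem_of_dk (S := Ce ξ) (X := ux x) h k e
  rw [← un_val (hx k e)]
  conv_lhs => rw [← h1]
  rw [ad, ux, Matrix.mul_assoc, Units.inv_mul, Matrix.mul_one]

theorem smul_one_tr (hn : 0 < n) {c : ℂ} {Y : Mx n} (h : c • (1 : Mx n) + Y = 0)
    (hY : trace Y = 0) : c = 0 := by
  have := congrArg trace h
  rw [trace_add, hY, trace_smul, trace_one, trace_zero, add_zero, Fintype.card_fin, smul_eq_mul,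
    mul_eq_zero] at this
  exact this.resolve_right (Nat.cast_ne_zero.2 hn.ne')

theorem rank_ker (hn : 0 < n) (hx : ∀ k e, (P275BC.mt x k e).det ≠ 0) (hi : x ∈ Irr n g) :
    finrank ℂ (LinearMap.ker (eqs x)) = 1 := by
  obtain ⟨y, hy⟩ := exists_up (ξ := (1 : Mx n)) fun a c h => one_apply_ne h.ne'
  have y0 : ((0, y) : (Fin g × Bool → ℂ) × (Tr n → ℂ)) ≠ 0 := fun e => by
    have := congrFun (congrFun hy ⟨0, hn⟩) ⟨0, hn⟩
    rw [show y = 0 from congrArg Prod.snd e, map_zero] at this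
    simpa using this
  suffices h : LinearMap.ker (eqs x) = ℂ ∙ (0, y) by rw [h, finrank_span_singleton y0]
  refine le_antisymm ?_ ((Submodule.span_singleton_le_iff_mem _ _).2 (LinearMap.ext fun u => ?_))
  · rintro ⟨l, z⟩ h
    have h1 : ∀ k e, l (k, e) • (1 : Mx n) + ad (dg x k e) (up n z) - up n z = 0 := fun k e =>
      eq_zero_of_tr fun ζ => by
        obtain ⟨N, rfl⟩ := exists_sg hx k e ζ
        rw [← eqs_sg, show eqs x (l, z) = 0 from h]; rfl
    have h2 : ∀ k e, l (k, e) = 0 := fun k e => smul_one_tr hn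
      ((add_sub_assoc _ _ _).symm.trans (h1 k e)) (by rw [trace_sub, tr_ad, sub_self])
    obtain ⟨c, hc⟩ := schur hn hi (up n z) (comm_of_Ce hx fun k e => by
      have := h1 k e
      rwa [h2, zero_smul, zero_add, sub_eq_zero] at this)
    refine Submodule.mem_span_singleton.2 ⟨c, Prod.ext (funext fun p => ?_) (funext fun p => ?_)⟩
    · simp [h2 p.1 p.2]
    · change c * y p = z p
      rw [← up_eq z, hc, ← hy, Matrix.smul_apply, up_eq, smul_eq_mul]
  · rw [eqs_apply, hy, Matrix.one_mul, tr_dmu]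
    simp

theorem rank_tv (hn : 0 < n) (hx : ∀ k e, (P275BC.mt x k e).det ≠ 0) (hi : x ∈ Irr n g) :
    2 * finrank ℂ (tv x) + 4 * g + n * (n + 1) = 4 * g * n ^ 2 + 2 := by
  have h1 := Subspace.finrank_add_finrank_dualCoannihilator_eq (LinearMap.range (eqs x))
  have h2 := LinearMap.finrank_range_add_finrank_ker (eqs x)
  have h3 := card_Tr n
  rw [rank_ker hn hx hi, finrank_prod, finrank_fintype_fun_eq_card, finrank_fintype_fun_eq_card,
    Fintype.card_prod, Fintype.card_fin, Fintype.card_bool] at h2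
  rw [finrank_fintype_fun_eq_card] at h1
  simp only [Fintype.card_prod, Fintype.card_fin, Fintype.card_bool] at h1
  rw [tv]
  have : g * (2 * (n * n)) = 2 * (g * n ^ 2) := by ring
  have : 4 * g * n ^ 2 = 4 * (g * n ^ 2) := by ring
  omega

theorem cb_iff (hx : ∀ k e, (P275BC.mt x k e).det ≠ 0) (ξ : Mx n) (k : Fin g) (e : Bool) :
    gn x u 0 k e ∈ Cb ξ ↔ P275BC.mt u k e = ξ * P275BC.mt x k e - P275BC.mt x k e * ξ := by
  have hu := isUnit_iff_ne_zero.2 (hx k e)
  change P275BC.mt u k e * _ = ξ - ad (un _) ξ ↔ _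
  rw [ad, un_val (hx k e), un_inv (hx k e)]
  refine ⟨fun h => ?_, fun h => ?_⟩
  · rw [← nonsing_inv_mul_cancel_right _ (P275BC.mt u k e) hu, h, Matrix.sub_mul,
      nonsing_inv_mul_cancel_right _ _ hu]
  · rw [h, Matrix.sub_mul, mul_nonsing_inv_cancel_right _ _ hu]

/-- the form on a coboundary: the moment map property -/
theorem om_cb (hx : ∀ k e, (P275BC.mt x k e).det ≠ 0) {ξ : Mx n}
    (h : ∀ k e, P275BC.mt u k e = ξ * P275BC.mt x k e - P275BC.mt x k e * ξ) (v : Ix n g → ℂ) :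
    om x u v = trace (((2 : ℂ) • ξ - dmu x u) * dmu x v) := by
  have : omL x u = (traceLinearMap (Fin n) ℂ ℂ).comp
      ((LinearMap.mulLeft ℂ ((2 : ℂ) • ξ - dmu x u)).comp (dmuL x)) := ext_sg fun k e N => by
    have h1 : (dk (gn x u 0) k e).a = ξ - ad (dk (gn x u 0) k e).g ξ :=
      dk_mem (S := Cb ξ) (fun k e => (cb_iff hx ξ k e).2 (h k e)) k e
    rw [show (dk (gn x u 0) k e).g = dg x k e from map_dk pg _ k e] at h1
    change om x u (sg k e N) = trace (_ * dmu x (sg k e N))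
    rw [(om_sg x u k e N rfl).2, (om_sg x u k e N rfl).1, h1]
    generalize ad (fg x k e) _ = η
    simp only [Matrix.mul_sub, Matrix.sub_mul, Matrix.mul_add, trace_sub, trace_add, Matrix.mul_smul,
      Matrix.smul_mul, trace_smul, smul_eq_mul, tr_ad_ad, smul_sub]
    rw [trace_mul_comm ξ, trace_mul_comm ξ, trace_mul_comm (dmu x u), trace_mul_comm (dmu x u)]
    ring
  exact LinearMap.congr_fun this v

theorem ker_om (hn : 0 < n) (hx : ∀ k e, (P275BC.mt x k e).det ≠ 0) (hu : u ∈ tv x) :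
    (∀ v ∈ tv x, om x u v = 0) ↔ ∃ ξ : Mx n, (∀ a c, c < a → ξ a c = 0) ∧
      ∀ k b, P275BC.mt u k b = ξ * P275BC.mt x k b - P275BC.mt x k b * ξ := by
  have hm : ∀ a c, c < a → dmu x u a c = 0 := fun a c h => (mem_tv.1 hu).2 a c h.le
  refine ⟨fun h => ?_, fun ⟨ξ, h1, h2⟩ v hv => ?_⟩
  · have h0 : omL x u ∈ (tv x).dualAnnihilator := (Submodule.mem_dualAnnihilator _).2 h
    rw [tv, Subspace.dualCoannihilator_dualAnnihilator_eq] at h0
    obtain ⟨⟨l, y⟩, h0⟩ := h0
    refine ⟨(2 : ℂ)⁻¹ • (up n y + dmu x u), fun a c e => by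
      rw [Matrix.smul_apply, Matrix.add_apply, up_low y e, hm a c e, add_zero, smul_zero],
      fun k e => (cb_iff hx _ k e).1 (mem_of_dk (X := gn x u 0) (fun k e => ?_) k e)⟩
    have h1 : l (k, e) • (1 : Mx n) + (ad (dg x k e) (up n y) - up n y +
        ((2 : ℂ) • (dk (gn x u 0) k e).a + ad (dg x k e) (dmu x u) - dmu x u)) = 0 :=
      eq_zero_of_tr fun ζ => by
        obtain ⟨N, rfl⟩ := exists_sg hx k e ζ
        have h2 := LinearMap.congr_fun h0 (sg k e N)
        rw [eqs_sg, omL_apply, (om_sg x u k e N rfl).2] at h2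
        rw [← add_assoc, ← add_sub_assoc (l (k, e) • (1 : Mx n)), Matrix.mul_add, trace_add, h2,
          neg_add_cancel]
    have h3 : trace (dk (gn x u 0) k e).a = 0 :=
      dk_mem (S := Tl) (fun k e => (mem_tv.1 hu).1 k e) k e
    rw [smul_one_tr hn h1 (by simp [trace_sub, tr_ad, h3]), zero_smul, zero_add] at h1
    change (dk (gn x u 0) k e).a = _ - ad (dk (gn x u 0) k e).g _
    rw [show (dk (gn x u 0) k e).g = dg x k e from map_dk pg _ k e, ad_smul, ad_add]
    linear_combination (norm := module) (2 : ℂ)⁻¹ • h1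
  · rw [om_cb hx h2]
    exact tr_up (fun a c e => by
      rw [Matrix.sub_apply, Matrix.smul_apply, h1 a c e, hm a c e, smul_zero, sub_zero])
      (mem_tv.1 hv).2

/-- **RK** -/
theorem rk : RK := fun n g t x hn ht hx =>
  ⟨irr ht hx, schur hn (irr ht hx), tv x, omL x, fun _ => mem_tv, fun _ _ => rfl, omL_alt x,
    rank_tv hn (det_ne hx) (irr ht hx), fun _ hu => ker_om hn (det_ne hx) hu⟩

end Vale.Agent.P275OM
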