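import Vale.Agent.P275OM.Rk
import Vale.Agent.P275BC.Jet

/-!
# P275 (helper20): derivatives along curves; the logarithmic form of a cell is nondegenerate.
-/

set_option linter.all false

open Matrix Module Filter Topology

namespace Vale.Agent.P275OM

open P275BC hiding mt
open P275BC.HG

variable {n g : ℕ} {x u v : Ix n g → ℂ} {t : Fin n → ℂ}

/-- derivative at `0` of a curve of matrices -/
def DM (f : ℂ → Mx n) (M : Mx n) : Prop := ∀ a c, HasDerivAt (fun s => f s a c) (M a c) 0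

namespace DM

variable {f f' : ℂ → Mx n} {M M' : Mx n}

theorem const (A : Mx n) : DM (fun _ => A) 0 := fun a c => hasDerivAt_const _ _

theorem mul (hf : DM f M) (hg : DM f' M') :
    DM (fun s => f s * f' s) (M * f' 0 + f 0 * M') := fun a c => by
  simp only [mul_apply, Matrix.add_apply, ← Finset.sum_add_distrib]
  exact HasDerivAt.fun_sum fun i _ => (hf a i).fun_mul (hg i c)

theorem cgr (hf : DM f M) (e : f' =ᶠ[𝓝 0] f) : DM f' M := fun a c =>
  (hf a c).congr_of_eventuallyEq (e.mono fun s hs => by simp only [hs])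

theorem uniq (hf : DM f M) (hg : DM f M') : M = M' := by
  ext a c; exact (hf a c).unique (hg a c)

theorem det_aux (n : ℕ) : ∃ D : Mx n → Mx n → ℂ, ∀ f M, DM f M →
    HasDerivAt (fun s => (f s).det) (D (f 0) M) 0 := by
  refine ⟨fun A M => ∑ σ : Equiv.Perm (Fin n), ((Equiv.Perm.sign σ : ℤ) : ℂ) *
    ∑ i, (∏ j ∈ Finset.univ.erase i, A (σ j) j) • M (σ i) i, fun f M hf => ?_⟩
  simp only [det_apply']
  exact HasDerivAt.fun_sum fun σ _ =>
    (HasDerivAt.fun_finsetProd fun i _ => hf (σ i) i).const_mul _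

theorem det_one (hf : DM f M) (h : f 0 = 1) : HasDerivAt (fun s => (f s).det) (trace M) 0 := by
  obtain ⟨D, hD⟩ := det_aux n
  have h1 := hD (fun s => 1 + s • M) M fun a c => by
    simpa using ((hasDerivAt_id (0 : ℂ)).mul_const (M a c)).const_add ((1 : Mx n) a c)
  rw [funext fun s : ℂ => det_one_add_smul s M] at h1
  simp only [zero_smul, add_zero] at h1
  have h2 := (((hasDerivAt_id (0 : ℂ)).const_mul (trace M)).const_add 1).fun_add
    ((Polynomial.hasDerivAt
      (Matrix.det (1 + (Polynomial.X : Polynomial ℂ) • M.map Polynomial.C)).divX.divX 0).fun_mul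
        (hasDerivAt_pow 2 0))
  have h3 := hD f M hf
  rw [h, h1.unique h2] at h3
  simpa using h3

theorem det (hf : DM f M) (h : (f 0).det ≠ 0) :
    HasDerivAt (fun s => (f s).det) (trace (M * (f 0)⁻¹) * (f 0).det) 0 := by
  have h1 := ((hf.mul (const (f 0)⁻¹)).det_one
    (mul_nonsing_inv _ (isUnit_iff_ne_zero.2 h))).mul_const (f 0).det
  simp only [det_mul, mul_assoc, det_nonsing_inv_mul_det _ (isUnit_iff_ne_zero.2 h), mul_one,
    Matrix.mul_zero, add_zero] at h1
  exact h1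

theorem ev (hf : DM f M) (h : (f 0).det ≠ 0) : ∀ᶠ s in 𝓝 0, (f s).det ≠ 0 :=
  (hf.det h).continuousAt.eventually_ne h

theorem inv (hf : DM f M) (h : (f 0).det ≠ 0) :
    DM (fun s => (f s)⁻¹) (-((f 0)⁻¹ * M * (f 0)⁻¹)) := by
  obtain ⟨D, hD⟩ := det_aux n
  have h1 : ∀ a c, DifferentiableAt ℂ (fun s => (f s)⁻¹ a c) 0 := fun a c => by
    simp only [inv_def, Ring.inverse_eq_inv', Matrix.smul_apply, smul_eq_mul, adjugate_apply]
    refine ((hf.det h).differentiableAt.fun_inv h).fun_mul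
      (hD _ (M.updateRow c 0) fun a' c' => ?_).differentiableAt
    by_cases e : a' = c
    · simp only [e, updateRow_self]; exact hasDerivAt_const _ _
    · simp only [updateRow_ne e]; exact hf a' c'
  have h2 : DM (fun s => (f s)⁻¹) (Matrix.of fun a c => deriv (fun s => (f s)⁻¹ a c) 0) :=
    fun a c => (h1 a c).hasDerivAt
  have h3 := (hf.mul h2).uniq ((const 1).cgr ((hf.ev h).mono fun s hs =>
    mul_nonsing_inv _ (isUnit_iff_ne_zero.2 hs)))
  rwa [Matrix.mul_assoc, eq_neg_of_add_eq_zero_left h3, Matrix.mul_neg, neg_neg,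
    nonsing_inv_mul_cancel_left _ _ (isUnit_iff_ne_zero.2 h)]

end DM

theorem gl_det (h : GL (Fin n) ℂ) : (h : Mx n).det ≠ 0 :=
  ((isUnit_iff_isUnit_det _).1 h.isUnit).ne_zero

/-- curves with their jets -/
noncomputable def Dr : Subgroup ((ℂ → GL (Fin n) ℂ) × HG n) where
  carrier := {p | p.1 0 = p.2.g ∧ DM (fun s => (p.1 s : Mx n)) (p.2.a * p.2.g)}
  one_mem' := ⟨rfl, by simpa using DM.const (1 : Mx n)⟩
  mul_mem' := by
    rintro ⟨f, F⟩ ⟨f', F'⟩ ⟨a1, a2⟩ ⟨b1, b2⟩
    dsimp only at *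
    refine ⟨by simp [a1, b1], ?_⟩
    have := a2.mul b2
    simp only [a1, b1] at this
    simpa only [Prod.fst_mul, Prod.snd_mul, Pi.mul_apply, Units.val_mul, mul_a, mul_g, ad,
      Matrix.add_mul, Matrix.mul_assoc, Units.inv_mul_cancel_left] using this
  inv_mem' := by
    rintro ⟨f, F⟩ ⟨a1, a2⟩
    dsimp only at *
    refine ⟨by simp [a1], ?_⟩
    have := a2.inv (gl_det _)
    simp only [a1, ← coe_units_inv] at this
    simpa only [Prod.fst_inv, Prod.snd_inv, Pi.inv_apply, inv_a, inv_g, ad, inv_inv,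
      Matrix.neg_mul, Matrix.mul_assoc] using this

theorem dm_mu {γ : ℂ → Ix n g → ℂ} (hγ : ∀ i, HasDerivAt (fun s => γ s i) (u i) 0)
    (hx : ∀ k e, (P275BC.mt (γ 0) k e).det ≠ 0) :
    DM (fun s => mu (γ s)) (dmu (γ 0) u * mu (γ 0)) := by
  have h0 : ∀ k e, DM (fun s => P275BC.mt (γ s) k e) (P275BC.mt u k e) := fun k e a c => hγ _
  have h : cw (fun k e => ((fun s => ux (γ s) k e), gn (γ 0) u 0 k e)) ∈ Dr :=
    cw_mem fun k e => ⟨rfl, by
      change DM (fun s => (ux (γ s) k e : Mx n)) (P275BC.mt u k e * (P275BC.mt (γ 0) k e)⁻¹ *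
        ((un (P275BC.mt (γ 0) k e) : GL (Fin n) ℂ) : Mx n))
      rw [un_val (hx k e), nonsing_inv_mul_cancel_right _ _ (isUnit_iff_ne_zero.2 (hx k e))]
      exact (h0 k e).cgr (((h0 k e).ev (hx k e)).mono fun s hs => un_val hs)⟩
  obtain ⟨h1, h2⟩ := h
  have e1 := fun s => map_cw ((Pi.evalMonoidHom _ s).comp (MonoidHom.fst _ _))
    fun k e => ((fun s => ux (γ s) k e), gn (γ 0) u 0 k e)
  have e2 := map_cw (MonoidHom.snd _ _) fun k e => ((fun s => ux (γ s) k e), gn (γ 0) u 0 k e)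
  simp only [MonoidHom.comp_apply, MonoidHom.coe_fst, MonoidHom.coe_snd,
    Pi.evalMonoidHom_apply] at e1 e2
  rw [← h1, e2] at h2
  simp only [e1] at h2
  rw [mu_eq hx]
  refine h2.cgr ?_
  filter_upwards [eventually_all.2 fun k => eventually_all.2 fun e => (h0 k e).ev (hx k e)]
    with s hs using mu_eq hs

theorem mu_det (hx : ∀ k e, (P275BC.mt x k e).det ≠ 0) : (mu x).det ≠ 0 :=
  mu_eq hx ▸ gl_det _

theorem inv_up {m : Mx n} (h : m.det ≠ 0) (hm : ∀ a c, c < a → m a c = 0) :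
    ∀ a c, c < a → m⁻¹ a c = 0 := by
  letI := m.invertibleOfIsUnitDet (isUnit_iff_ne_zero.2 h)
  exact fun a c e => blockTriangular_inv_of_blockTriangular (b := id) (fun a c e => hm a c e) e

/-- the velocity of a curve in `Rt` is tangent -/
theorem tv_of_curve {γ : ℂ → Ix n g → ℂ} (hγ : ∀ i, HasDerivAt (fun s => γ s i) (u i) 0)
    (hm : ∀ᶠ s in 𝓝 0, γ s ∈ Rt g t) : u ∈ tv (γ 0) := by
  have hx := hm.self_of_nhds
  refine mem_tv.2 ⟨fun k e => ?_, fun a c h => ?_⟩
  · have := (DM.det (f := fun s => P275BC.mt (γ s) k e) (M := P275BC.mt u k e) (fun a c => hγ _)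
      (det_ne hx k e)).unique ((hasDerivAt_const _ (1 : ℂ)).congr_of_eventuallyEq
        (hm.mono fun s hs => hs.1 k e))
    exact (mul_eq_zero.1 this).resolve_right (det_ne hx k e)
  · have h1 : ∀ i, i ≤ a → (dmu (γ 0) u * mu (γ 0)) a i = 0 := fun i hi =>
      (dm_mu hγ (det_ne hx) a i).unique ((hasDerivAt_const _ (mu (γ 0) a i)).congr_of_eventuallyEq
        (hm.mono fun s hs => by
          rcases hi.eq_or_lt with rfl | e
          · exact (hs.2.2 i).trans (hx.2.2 i).symm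
          · exact (hs.2.1 a i e).trans (hx.2.1 a i e).symm))
    change dmu (γ 0) u a c = 0
    rw [← mul_nonsing_inv_cancel_right _ (dmu (γ 0) u)
      (isUnit_iff_ne_zero.2 (mu_det (det_ne hx))), mul_apply]
    refine Finset.sum_eq_zero fun i _ => ?_
    rcases le_or_gt i a with e | e
    · rw [h1 i e, zero_mul]
    · rw [inv_up (mu_det (det_ne hx)) hx.2.1 i c (h.trans_lt e), mul_zero]

/-- the infinitesimal action of upper triangular matrices -/
noncomputable def cb (x : Ix n g → ℂ) : (Tr n → ℂ) →ₗ[ℂ] Ix n g → ℂ :=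
  mkL (fun y i => (up n y * P275BC.mt x i.1 i.2.1 - P275BC.mt x i.1 i.2.1 * up n y) i.2.2.1 i.2.2.2)
    fun c v w => funext fun i => by
      simp only [map_add, map_smul, Matrix.add_mul, Matrix.mul_add, Matrix.smul_mul, Matrix.mul_smul,
        Matrix.sub_apply, Matrix.add_apply, Matrix.smul_apply, Pi.add_apply, Pi.smul_apply,
        smul_eq_mul]
      ring

theorem rank_cb (hn : 0 < n) (x : Ix n g → ℂ) :
    2 * finrank ℂ (LinearMap.range (cb x)) + 2 ≤ n * (n + 1) := by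
  obtain ⟨y, hy⟩ := exists_up (ξ := (1 : Mx n)) fun a c h => one_apply_ne h.ne'
  have h1 := LinearMap.finrank_range_add_finrank_ker (cb x)
  have h2 : finrank ℂ (LinearMap.ker (cb x)) ≠ 0 := fun h => by
    have : y ∈ LinearMap.ker (cb x) := funext fun i => by
      change (up n y * _ - _ * up n y : Mx n) _ _ = 0
      rw [hy, Matrix.one_mul, Matrix.mul_one, sub_self]; rfl
    rw [Submodule.finrank_eq_zero.1 h, Submodule.mem_bot] at this
    have := congrFun (congrFun hy ⟨0, hn⟩) ⟨0, hn⟩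
    simp_all
  have h3 := card_Tr n
  rw [finrank_fintype_fun_eq_card] at h1
  omega

/-- the dimension count -/
theorem count (hn : 0 < n) (hx : ∀ k e, (P275BC.mt x k e).det ≠ 0) (hi : x ∈ Irr n g)
    {E : Type} [AddCommGroup E] [Module ℂ E] (L : E →ₗ[ℂ] Ix n g → ℂ)
    (inj : Function.Injective L) (hL : ∀ u, L u ∈ tv x) (K : Submodule ℂ E)
    (hK : ∀ u ∈ K, ∀ v, om x (L v) (L u) = 0) :
    finrank ℂ E + finrank ℂ K + 2 * g ≤ 2 * g * n ^ 2 := by
  have inj' : Function.Injective (L.codRestrict _ hL) := fun a b e => inj (congrArg Subtype.val e)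
  have h1 := LinearMap.BilinForm.finrank_add_finrank_orthogonal' (B := (omL x).restrict (tv x))
    (LinearMap.range (L.codRestrict _ hL))
  have h2 := LinearMap.finrank_range_of_inj inj'
  have h3 : finrank ℂ K ≤ finrank ℂ (LinearMap.BilinForm.orthogonal ((omL x).restrict (tv x))
      (LinearMap.range (L.codRestrict _ hL))) := by
    rw [← (Submodule.equivMapOfInjective _ inj' K).finrank_eq.symm]
    refine Submodule.finrank_mono ?_
    rintro _ ⟨u, hu, rfl⟩ _ ⟨v, rfl⟩
    exact hK u hu v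
  have h4 : finrank ℂ (LinearMap.range (L.codRestrict _ hL) ⊓
      LinearMap.ker ((omL x).restrict (tv x)) : Submodule ℂ (tv x)) ≤
      finrank ℂ (LinearMap.range (cb x)) := by
    rw [← Submodule.finrank_map_subtype_eq]
    refine Submodule.finrank_mono ?_
    rintro _ ⟨u, hu, rfl⟩
    obtain ⟨ξ, a1, a2⟩ := (ker_om hn hx u.2).1 fun v hv => LinearMap.congr_fun hu.2 ⟨v, hv⟩
    obtain ⟨y, rfl⟩ := exists_up a1
    exact ⟨y, funext fun i => (congrFun (congrFun (a2 i.1 i.2.1) _) _).symm⟩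
  have h5 := rank_cb hn x
  have h6 := rank_tv hn hx hi
  have : 4 * g * n ^ 2 = 2 * (2 * g * n ^ 2) := by ring
  omega

section cell

variable {ι α β : Type} [Fintype ι] [Fintype α] [Fintype β] {S : Set (ι → ℂ)} (c : Cell S α β)
  {w : α ⊕ β → ℂ}

theorem ev_tor (hw : w ∈ Tor α β) : ∀ᶠ y in 𝓝 w, y ∈ Tor α β := isOpen_Tor.mem_nhds hw

theorem phi_diff (hw : w ∈ Tor α β) (i : ι) : DifferentiableAt ℂ (fun y => c.φ y i) w :=
  (c.rφ i).differentiableAt (F := id) (fun k => differentiableAt_apply k w) (ev_tor hw)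

theorem psi_phi (hw : w ∈ Tor α β) (k : α ⊕ β) (u : α ⊕ β → ℂ) :
    fderiv ℂ (fun y => c.ψ (c.φ y) k) w u = u k := by
  have : (fun y => c.ψ (c.φ y) k) =ᶠ[𝓝 w] fun y => y k :=
    (ev_tor hw).mono fun y hy => congrFun (c.ri y hy) k
  rw [this.fderiv_eq, (hasFDerivAt_apply k w).fderiv]; rfl

theorem phi_inj (hw : w ∈ Tor α β) : Function.Injective (fderiv ℂ c.φ w) :=
  (injective_iff_map_eq_zero _).2 fun u hu => funext fun k => by
    obtain ⟨P, Q, h1, h2⟩ := c.rψ k _ (c.mφ w hw)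
    have hP := fun P : MvPolynomial ι ℂ => (Reg.poly (S := Set.univ) P).differentiableAt (F := id)
      (fun k => differentiableAt_apply k (c.φ w)) (by simp)
    have hG : DifferentiableAt ℂ (fun y => MvPolynomial.eval y P * (MvPolynomial.eval y Q)⁻¹)
        (c.φ w) := (hP P).fun_mul (DifferentiableAt.fun_inv (hP Q) h1)
    have hd := differentiableAt_pi.2 (phi_diff c hw)
    have e : (fun y => c.ψ (c.φ y) k) =ᶠ[𝓝 w]
        (fun y => MvPolynomial.eval y P * (MvPolynomial.eval y Q)⁻¹) ∘ c.φ := by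
      filter_upwards [ev_tor hw, ((hP Q).continuousAt.comp hd.continuousAt).eventually_ne h1]
        with y hy hq using (h2 _ (c.mφ y hy) hq).trans (div_eq_mul_inv _ _)
    rw [← psi_phi c hw k u, e.fderiv_eq, fderiv_comp _ hG hd, ContinuousLinearMap.comp_apply, hu,
      map_zero, Pi.zero_apply]

theorem phi_curve (hw : w ∈ Tor α β) (u : α ⊕ β → ℂ) (i : ι) :
    HasDerivAt (fun s : ℂ => c.φ (w + s • u) i) (fderiv ℂ c.φ w u i) 0 :=
  hasDerivAt_pi.1 ((differentiableAt_pi.2 (phi_diff c hw)).hasFDerivAt.comp_hasDerivAt_of_eq 0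
    (by simpa using ((hasDerivAt_id (0 : ℂ)).smul_const u).const_add w) (by simp)) i

theorem ev_curve (hw : w ∈ Tor α β) (u : α ⊕ β → ℂ) : ∀ᶠ s : ℂ in 𝓝 0, w + s • u ∈ Tor α β :=
  (show ContinuousAt (fun s : ℂ => w + s • u) 0 by fun_prop).eventually_mem
    (by simpa using isOpen_Tor.mem_nhds hw)

end cell

/-- the form in the coordinates of a cell -/
theorem om_cell {α β : Type} [Fintype α] [Fintype β] {S : Set (Ix n g → ℂ)} (c : Cell S α β)
    {Ω : Matrix α α ℂ} (h : c.LogC (omC n g) Ω) {w : α ⊕ β → ℂ} (hw : w ∈ Tor α β)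
    (u v : α ⊕ β → ℂ) : om (c.φ w) (fderiv ℂ c.φ w u) (fderiv ℂ c.φ w v) =
      ∑ i, ∑ k, Ω i k * (u (Sum.inl i) / w (Sum.inl i) * (v (Sum.inl k) / w (Sum.inl k))) := by
  have := h _ (ctx_of (phi_diff c hw) ((ev_tor hw).mono c.mφ) u v)
  simp only [lg, jt_fst, jt_snd1, jt_snd2, psi_phi c hw, c.ri w hw, ← div_eq_inv_mul] at this
  rw [← this, fderiv_pi (phi_diff c hw)]
  rfl

theorem chr_single {r : ℕ} (χ : Fin r → ℤ) (l : Fin r) (τ : ℂˣ) :
    chr χ (Pi.mulSingle l τ) = (τ : ℂ) ^ χ l := by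
  rw [chr, Finset.prod_eq_single l (fun a _ h => by rw [Pi.mulSingle_eq_of_ne h, _root_.one_zpow])
    (by simp), Pi.mulSingle_eq_same, Units.val_zpow_eq_zpow_val]

/-- the torus directions of a cell in normal form -/
theorem nf_dir {ι α β : Type} [Fintype ι] [Fintype α] [Fintype β] [DecidableEq α] [DecidableEq β]
    {r : ℕ} {S : Set (ι → ℂ)}
    (c : Cell S (Fin r ⊕ α) β) {W : ι → Fin r → ℤ} (h : c.NF W) (l : Fin r) (i : ι) :
    fderiv ℂ c.φ 1 (Pi.single (Sum.inl (Sum.inl l)) 1) i = W i l * c.φ 1 i := by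
  have hw : (1 : (Fin r ⊕ α) ⊕ β → ℂ) ∈ Tor (Fin r ⊕ α) β := fun _ => one_ne_zero
  have hx := c.mφ _ hw
  refine (phi_curve c hw _ i).unique ?_
  have h1 := ((hasDerivAt_zpow (W i l) ((1 : ℂ) + 0) (Or.inl (by simp))).comp (0 : ℂ)
    ((hasDerivAt_id (0 : ℂ)).const_add 1)).mul_const (c.φ 1 i)
  simp only [add_zero, _root_.one_zpow, mul_one] at h1
  refine h1.congr_of_eventuallyEq ?_
  filter_upwards [(show ContinuousAt (fun s : ℂ => 1 + s) 0 by fun_prop).eventually_ne
    (y := 0) (by simp)] with s hs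
  have e : c.ψ (actW W (Pi.mulSingle l (Units.mk0 _ hs)) (c.φ 1)) =
      1 + s • Pi.single (Sum.inl (Sum.inl l)) 1 := by
    funext k
    rcases k with (k | k) | k
    · refine (h.2.1 k _ _ hx).trans ?_
      simp only [chr_single, c.ri _ hw]
      by_cases e : l = k
      · simp [e]
      · simp [e, Ne.symm e]
    · refine (h.2.2.1 k _ _ hx).trans ?_
      simp [chr_single, c.ri _ hw]
    · refine (h.2.2.2 k _ _ hx).trans ?_
      simp [chr_single, c.ri _ hw]
  rw [← e, c.li _ (h.1 _ _ hx), actW, chr_single]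
  rfl

/-- **ND** -/
theorem nd : ND := fun r g a b t S c Ω ht hS hN hΩ hd => by
  classical
  have hw : (1 : (Fin r ⊕ Fin a) ⊕ Fin b → ℂ) ∈ Tor (Fin r ⊕ Fin a) (Fin b) :=
    fun _ => one_ne_zero
  have hx := hS (c.mφ _ hw)
  have hL : ∀ u, fderiv ℂ c.φ 1 u ∈ tv (c.φ 1) := fun u => by
    simpa using tv_of_curve (phi_curve c hw u) ((ev_curve hw u).mono fun s hs => hS (c.mφ _ hs))
  have h1 := om_cell c hΩ hw
  simp only [Pi.one_apply, div_one] at h1
  have h2 : ∀ i k, om (c.φ 1) (fderiv ℂ c.φ 1 (Pi.single (Sum.inl i) 1))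
      (fderiv ℂ c.φ 1 (Pi.single (Sum.inl k) 1)) = Ω i k := fun i k => by
    simp [h1, Pi.single_apply]
  have h3 : ∀ i k, Ω k i = -Ω i k := fun i k => by rw [← h2, ← h2, om_swap]
  have h4 : ∀ l k, Ω (Sum.inl l) k = 0 := fun l k => by
    rw [← h2]
    refine (ker_om r.succ_pos (det_ne hx) (hL _)).2 ⟨diagonal (Pi.single l.succ 1),
      fun a c h => diagonal_apply_ne _ h.ne', fun k e => ?_⟩ _ (hL _)
    ext p q
    change fderiv ℂ c.φ 1 _ (k, e, p, q) = _
    rw [nf_dir c hN, Matrix.sub_apply, diagonal_mul, mul_diagonal]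
    simp only [wA, wT, P275BC.mt, of_apply, Pi.sub_apply, Pi.single_apply, Int.cast_sub,
      Int.cast_ite, Int.cast_one, Int.cast_zero, @eq_comm _ l.succ]
    ring
  have h5 : ∀ l k, Ω k (Sum.inl l) = 0 := fun l k => by rw [h3, h4, neg_zero]
  obtain ⟨F, hF⟩ : ∃ F : ((Fin r ⊕ Fin a) ⊕ Fin b → ℂ) →ₗ[ℂ] Fin a → ℂ,
      F = LinearMap.funLeft ℂ ℂ (Sum.inl ∘ Sum.inr) := ⟨_, rfl⟩
  have hs : Function.Surjective F := hF ▸ LinearMap.funLeft_surjective_of_injective _ _ _
    (Sum.inl_injective.comp Sum.inr_injective)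
  have h6 := count r.succ_pos (det_ne hx) (irr ht hx) (fderiv ℂ c.φ 1 : _ →ₗ[ℂ] _) (phi_inj c hw) hL
    (LinearMap.ker ((Ω.submatrix Sum.inr Sum.inr).toLin'.comp F)) fun u hu v => by
      refine (h1 v u).trans ?_
      rw [Fintype.sum_sum_type]
      simp only [h4, zero_mul, Finset.sum_const_zero, zero_add, Fintype.sum_sum_type, h5]
      refine Finset.sum_eq_zero fun i _ => ?_
      have := congrFun hu i
      simp only [hF, LinearMap.comp_apply, toLin'_apply, mulVec, dotProduct, submatrix_apply,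
        LinearMap.funLeft_apply, Function.comp, Pi.zero_apply] at this
      simp only [mul_left_comm _ (v _), ← Finset.mul_sum, this, mul_zero]
  have h7 := LinearMap.finrank_range_add_finrank_ker ((Ω.submatrix Sum.inr Sum.inr).toLin'.comp F)
  have h8 := Submodule.finrank_le (LinearMap.range (Ω.submatrix Sum.inr Sum.inr).toLin')
  rw [LinearMap.range_comp_of_range_eq_top _ (LinearMap.range_eq_top.2 hs)] at h7
  simp only [finrank_fintype_fun_eq_card, Fintype.card_sum, Fintype.card_fin,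
    Nat.succ_eq_add_one] at h6 h7 h8
  refine ⟨by omega, ?_, by ext i k; exact h3 _ _⟩
  have h9 : LinearMap.range (Ω.submatrix Sum.inr Sum.inr).toLin' = ⊤ :=
    Submodule.eq_top_of_finrank_eq (by
      simp only [finrank_fintype_fun_eq_card, Fintype.card_fin]; omega)
  exact ((isUnit_iff_isUnit_det _).1 (mulVec_surjective_iff_isUnit.1
    (LinearMap.range_eq_top.1 h9))).ne_zero

end Vale.Agent.P275OM
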