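import Vale.Agent.P275OM.Nd

/-!
# P275 (helper20): the form `om` is basic.
-/

set_option linter.all false

open Matrix Module Filter Topology

namespace Vale.Agent.P275OM

open P275BC hiding mt
open P275BC.HG

/-- first order variation of a kernel -/
theorem inf {V W : Type*} [NormedAddCommGroup V] [NormedSpace ℂ V] [FiniteDimensional ℂ V]
    [NormedAddCommGroup W] [NormedSpace ℂ W] {A : ℂ → V →ₗ[ℂ] W} {v0 : V} {w : W}
    (hc : ∀ v, ContinuousAt (fun s => A s v) 0) (hd : HasDerivAt (fun s => A s v0) w 0)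
    (h0 : A 0 v0 = 0) (hv : v0 ≠ 0) (hk : ∀ v, A 0 v = 0 → ∃ c : ℂ, v = c • v0)
    (h : ∀ᶠ s in 𝓝 0, ∃ v ≠ 0, A s v = 0) : ∃ v, w = A 0 v := by
  by_contra hn
  obtain ⟨φ, hφ⟩ := Module.Projective.exists_dual_eq_one ℂ hv
  obtain ⟨B, hB⟩ : ∃ B : ℂ → V →L[ℂ] W, ∀ s v,
      B s v = A s v - φ v • A s v0 + φ v • dslope (fun s => A s v0) 0 s :=
    ⟨fun s => LinearMap.toContinuousLinearMap
      (A s - φ.smulRight (A s v0) + φ.smulRight (dslope (fun s => A s v0) 0 s)), fun _ _ => rfl⟩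
  have cB : ContinuousAt B 0 := continuousAt_clm_apply.2 fun v => by
    simp only [hB]
    exact ((hc v).sub ((hc v0).const_smul _)).add
      ((continuousAt_dslope_same.2 hd.differentiableAt).const_smul _)
  have i0 : Function.Injective (B 0) := (injective_iff_map_eq_zero _).2 fun v e => by
    rw [hB, h0, smul_zero, sub_zero, dslope_same, hd.deriv] at e
    have e1 : φ v = 0 := by_contra fun e1 => hn ⟨-(φ v)⁻¹ • v, by
      rw [map_smul, eq_neg_of_add_eq_zero_left e, smul_neg, neg_smul, neg_neg, smul_smul,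
        inv_mul_cancel₀ e1, one_smul]⟩
    rw [e1, zero_smul, add_zero] at e
    obtain ⟨c, rfl⟩ := hk v e
    rw [map_smul, hφ, smul_eq_mul, mul_one] at e1
    rw [e1, zero_smul]
  obtain ⟨s, ⟨⟨v, v1, v2⟩, hs⟩, s0⟩ := ((((h.and (cB.eventually_mem
    (ContinuousLinearMap.isOpen_injective.mem_nhds i0))).filter_mono nhdsWithin_le_nhds).and
      self_mem_nhdsWithin : ∀ᶠ s in 𝓝[≠] (0 : ℂ), _)).exists
  have e := sub_smul_dslope (fun s => A s v0) 0 s
  simp only [sub_zero, h0] at e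
  have e2 : v - φ v • v0 + (s * φ v) • v0 = 0 := (injective_iff_map_eq_zero _).1 hs _ (by
    simp only [hB, map_add, map_sub, map_smul, hφ, v2, smul_eq_mul, mul_one, ← e]
    module)
  have e3 := congrArg φ e2
  simp only [map_add, map_sub, map_smul, hφ, smul_eq_mul, mul_one, sub_self, zero_add, map_zero,
    mul_eq_zero] at e3
  rw [e3.resolve_left s0] at e2
  exact v1 (by simpa using e2)

variable {n g : ℕ} {x y u v u' v' : Ix n g → ℂ} {t : Fin n → ℂ}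

/-- constant elements -/
noncomputable def cs (h : GL (Fin n) ℂ) : HG n := ⟨h, 0, 0, 0⟩

theorem cs_conj (h : GL (Fin n) ℂ) (F : HG n) :
    cs h * F * (cs h)⁻¹ = ⟨h * F.g * h⁻¹, ad h F.a, ad h F.b, F.z⟩ := by
  ext1 <;> simp [cs, ad_zero]

theorem un_eq {M : Mx n} {h : GL (Fin n) ℂ} (e : M = h) : un M = h :=
  Units.ext ((un_val (e ▸ gl_det h)).trans e)

theorem cw_conj (hx : ∀ k e, (P275BC.mt x k e).det ≠ 0) (h : GL (Fin n) ℂ)
    (hy : ∀ k e, P275BC.mt y k e = ad h (P275BC.mt x k e))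
    (hu : ∀ k e, P275BC.mt u' k e = ad h (P275BC.mt u k e))
    (hv : ∀ k e, P275BC.mt v' k e = ad h (P275BC.mt v k e)) :
    cw (gn y u' v') = cs h * cw (gn x u v) * (cs h)⁻¹ := by
  refine Eq.trans ?_ (map_cw (MulAut.conj (cs h)).toMonoidHom (gn x u v)).symm
  congr 1
  funext k e
  have e1 : un (P275BC.mt y k e) = h * un (P275BC.mt x k e) * h⁻¹ := un_eq (by
    rw [hy, Units.val_mul, Units.val_mul, un_val (hx k e)]; rfl)
  have e2 : (P275BC.mt y k e)⁻¹ = ad h (P275BC.mt x k e)⁻¹ := by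
    rw [← un_inv (hx k e), ← un_inv (by rw [hy, ad, det_units_conj]; exact hx k e), e1]
    simp [ad, Matrix.mul_assoc]
  refine Eq.trans ?_ (cs_conj h _).symm
  simp only [gn, e1, e2, hu, hv, ad_mul_ad]

theorem dmu_cb (hx : ∀ k e, (P275BC.mt x k e).det ≠ 0) {ξ : Mx n}
    (h : ∀ k e, P275BC.mt u k e = ξ * P275BC.mt x k e - P275BC.mt x k e * ξ) :
    dmu x u = ξ - mu x * ξ * (mu x)⁻¹ := by
  have h1 : (cw (gn x u 0)).a = ξ - ad (cw (gn x u 0)).g ξ :=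
    cw_mem (S := Cb ξ) fun k e => (cb_iff hx ξ k e).2 (h k e)
  rwa [show (cw (gn x u 0)).g = cw (ux x) from map_cw pg _, ad, coe_units_inv, ← mu_eq hx] at h1

/-- a vector given by matrices -/
def vc (M : Fin g → Bool → Mx n) : Ix n g → ℂ := fun i => M i.1 i.2.1 i.2.2.1 i.2.2.2

theorem mt_vc (M : Fin g → Bool → Mx n) (k : Fin g) (e : Bool) : P275BC.mt (vc M) k e = M k e := rfl

theorem mt_ext (h : ∀ k e, P275BC.mt u k e = P275BC.mt v k e) : u = v :=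
  funext fun i => congrFun (congrFun (h i.1 i.2.1) _) _

/-- invariance under first order gauge transformations -/
theorem om_gauge (hx : ∀ k e, (P275BC.mt x k e).det ≠ 0) (P : Subalgebra ℂ (Mx n))
    (inv : ∀ m ∈ P, m⁻¹ ∈ P) {h : GL (Fin n) ℂ} {ξ η : Mx n} (hh : (h : Mx n) ∈ P) (hξ : ξ ∈ P)
    (hη : η ∈ P) (hm : mu y ∈ P) (hy : ∀ k e, P275BC.mt y k e = ad h (P275BC.mt x k e))
    (hu : ∀ k e, P275BC.mt u' k e =
      ad h (P275BC.mt u k e) + (ξ * P275BC.mt y k e - P275BC.mt y k e * ξ))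
    (hv : ∀ k e, P275BC.mt v' k e =
      ad h (P275BC.mt v k e) + (η * P275BC.mt y k e - P275BC.mt y k e * η))
    (t1 : ∀ m ∈ P, trace (m * dmu x u) = 0) (t2 : ∀ m ∈ P, trace (m * dmu y v') = 0) :
    om y u' v' = om x u v := by
  have hy' : ∀ k e, (P275BC.mt y k e).det ≠ 0 := fun k e => by
    rw [hy, ad, det_units_conj]; exact hx k e
  have c := cw_conj (u' := vc fun k e => ad h (P275BC.mt u k e))
    (v' := vc fun k e => ad h (P275BC.mt v k e)) hx h hy (fun _ _ => rfl) fun _ _ => rfl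
  rw [cs_conj] at c
  have c1 := congrArg HG.a c
  have c2 := congrArg HG.z c
  simp only [cw_a, ← om_eq] at c1 c2
  have m : ∀ ζ ∈ P, (2 : ℂ) • ζ - dmu y (vc fun k e => ζ * P275BC.mt y k e - P275BC.mt y k e * ζ)
      ∈ P := fun ζ hζ => by
    rw [dmu_cb hy' fun _ _ => rfl]
    exact sub_mem (P.smul_mem hζ _) (sub_mem hζ (mul_mem (mul_mem hm hζ) (inv _ hm)))
  have e1 : u' = (vc fun k e => ad h (P275BC.mt u k e)) +
      vc fun k e => ξ * P275BC.mt y k e - P275BC.mt y k e * ξ := mt_ext hu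
  have e2 : v' = (vc fun k e => ad h (P275BC.mt v k e)) +
      vc fun k e => η * P275BC.mt y k e - P275BC.mt y k e * η := mt_ext hv
  rw [← omL_apply, e1, map_add, LinearMap.add_apply, omL_apply, omL_apply,
    om_cb hy' (ξ := ξ) (mt_vc _), t2 _ (m ξ hξ), add_zero, ← omL_apply, e2, map_add, omL_apply,
    omL_apply, c2, om_swap y, om_cb hy' (ξ := η) (mt_vc _), c1, ← tr_ad_ad h⁻¹, ad_inv_ad, t1,
    neg_zero, add_zero]
  rw [ad, inv_inv, coe_units_inv]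
  exact mul_mem (mul_mem (inv _ hh) (m η hη)) hh

/-- `L a` is an orbit of the units of `P` in `Rt g t`, on which the form is basic -/
structure Fb {X : Type} (t : Fin n → ℂ) (P : Subalgebra ℂ (Mx n)) (L : X → Set (Ix n g → ℂ)) :
    Prop where
  gnc : Gnc t
  sub : ∀ a, L a ⊆ Rt g t
  inv : ∀ m ∈ P, m⁻¹ ∈ P
  mu : ∀ a, ∀ y ∈ L a, mu y ∈ P
  tr : ∀ a a', ∀ y ∈ L a, ∀ y' ∈ L a', ∀ m ∈ P, trace (m * P275BC.mu y) = trace (m * P275BC.mu y')
  orb : ∀ a, ∀ y ∈ L a, ∀ y' ∈ L a, ∃ h ∈ P, h ≠ 0 ∧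
    ∀ k e, P275BC.mt y' k e * h = h * P275BC.mt y k e

variable {X Y : Type} {P : Subalgebra ℂ (Mx n)} {L : X → Set (Ix n g → ℂ)}

/-- orbits of upper triangular matrices -/
theorem Fb.upper (ht : Gnc t) (hs : ∀ a, L a ⊆ Rt g t) (h : ∀ a, ∀ y ∈ L a, ∀ y' ∈ L a,
    ∃ h : Mx n, (∀ a c, c < a → h a c = 0) ∧ h ≠ 0 ∧
      ∀ k e, P275BC.mt y' k e * h = h * P275BC.mt y k e) :
    Fb t (blockTriangularSubalgebra ℂ ℂ id) L where
  gnc := ht
  sub := hs
  inv m hm := by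
    by_cases e : m.det = 0
    · rw [nonsing_inv_apply_not_isUnit _ (by simp [e])]; exact zero_mem _
    · exact fun a c h => inv_up e (fun a c h => hm h) a c h
  mu a y hy b c e := (hs a hy).2.1 b c e
  tr a a' y hy y' hy' m hm := by
    rw [← sub_eq_zero, ← trace_sub, ← Matrix.mul_sub]
    refine tr_up (fun a c h => hm h) fun b c e => sub_eq_zero.2 ?_
    rcases e.eq_or_lt with rfl | e
    · exact ((hs a hy).2.2 c).trans ((hs a' hy').2.2 c).symm
    · exact ((hs a hy).2.1 b c e).trans ((hs a' hy').2.1 b c e).symm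
  orb a y hy y' hy' := let ⟨m, h1, h2⟩ := h a y hy y' hy'; ⟨m, fun a c e => h1 a c e, h2⟩

/-- orbits of all matrices -/
theorem Fb.scalar {ζ : ℂ} (ht : Gnc fun _ : Fin n => ζ) (hs : ∀ a, L a ⊆ Rz n g ζ)
    (h : ∀ a, ∀ y ∈ L a, ∀ y' ∈ L a, ∃ h : Mx n, h ≠ 0 ∧
      ∀ k e, P275BC.mt y' k e * h = h * P275BC.mt y k e) : Fb (fun _ => ζ) ⊤ L where
  gnc := ht
  sub a y hy := ⟨(hs a hy).1, fun b c e => by simp [(hs a hy).2, one_apply_ne e.ne'],
    fun b => by simp [(hs a hy).2]⟩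
  inv _ _ := trivial
  mu _ _ _ := trivial
  tr a a' y hy y' hy' m _ := by rw [(hs a hy).2, (hs a' hy').2]
  orb a y hy y' hy' := let ⟨m, h1⟩ := h a y hy y' hy'; ⟨m, trivial, h1⟩

theorem Fb.comp (h : Fb t P L) {L' : Y → Set (Ix n g → ℂ)} (f : Y → X) (e : ∀ b, L' b ⊆ L (f b)) :
    Fb t P L' :=
  ⟨h.gnc, fun b => (e b).trans (h.sub _), h.inv, fun b y hy => h.mu _ y (e b hy),
    fun b b' y hy y' hy' => h.tr _ _ y (e b hy) y' (e b' hy'),
    fun b y hy y' hy' => h.orb _ y (e b hy) y' (e b hy')⟩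

theorem det_of_irr (hx : x ∈ Irr n g) {h : Mx n} (h0 : h ≠ 0)
    (e : ∀ k b, P275BC.mt y k b * h = h * P275BC.mt x k b) : h.det ≠ 0 := fun hd => by
  rcases hx (LinearMap.ker (Matrix.toLin' h)) (fun k b w hw => by
    rw [LinearMap.mem_ker, toLin'_apply] at hw ⊢
    rw [mulVec_mulVec, ← e, ← mulVec_mulVec, hw, mulVec_zero]) with h1 | h1
  · obtain ⟨w, w0, w1⟩ := exists_mulVec_eq_zero_iff.2 hd
    exact w0 ((Submodule.mem_bot ℂ).1 (h1 ▸ w1))
  · exact h0 (Matrix.toLin'.map_eq_zero_iff.1 (LinearMap.ker_eq_top.1 h1))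

theorem Fb.tan (F : Fb t P L) {γ : ℂ → Ix n g → ℂ} (hγ : ∀ i, HasDerivAt (fun s => γ s i) (u i) 0)
    (hm : ∀ᶠ s in 𝓝 0, ∃ a, γ s ∈ L a) : ∀ m ∈ P, trace (m * dmu (γ 0) u) = 0 := fun m hP => by
  obtain ⟨a, ha⟩ := hm.self_of_nhds
  have hx := det_ne (F.sub a ha)
  have h := (DM.const ((P275BC.mu (γ 0))⁻¹ * m)).mul (dm_mu hγ hx)
  have h2 := (HasDerivAt.fun_sum (u := Finset.univ) fun i _ => h i i).unique
    ((hasDerivAt_const _ (trace ((P275BC.mu (γ 0))⁻¹ * m * P275BC.mu (γ 0)))).congr_of_eventuallyEq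
      (hm.mono fun s ⟨b, hb⟩ => F.tr b a _ hb _ ha _ (mul_mem (F.inv _ (F.mu a _ ha)) hP)))
  change trace _ = 0 at h2
  rwa [Matrix.zero_mul, zero_add, Matrix.mul_assoc, trace_mul_comm, ← Matrix.mul_assoc m,
    mul_nonsing_inv_cancel_right _ _ (isUnit_iff_ne_zero.2 (mu_det hx))] at h2

/-- the equations of the intertwiners -/
noncomputable def itw (x y : Ix n g → ℂ) : Mx n →ₗ[ℂ] Ix n g → ℂ :=
  mkL (fun m => vc fun k e => P275BC.mt y k e * m - m * P275BC.mt x k e) fun c v w =>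
    funext fun i => by
      simp only [vc, Matrix.add_mul, Matrix.mul_add, Matrix.smul_mul, Matrix.mul_smul,
        Matrix.sub_apply, Matrix.add_apply, Matrix.smul_apply, Pi.add_apply, Pi.smul_apply,
        smul_eq_mul]
      ring

open scoped Matrix.Norms.Elementwise in
theorem Fb.jet (F : Fb t P L) {γ γ' : ℂ → Ix n g → ℂ}
    (hγ : ∀ i, HasDerivAt (fun s => γ s i) (u i) 0)
    (hγ' : ∀ i, HasDerivAt (fun s => γ' s i) (u' i) 0)
    (hm : ∀ᶠ s in 𝓝 0, ∃ a, γ s ∈ L a ∧ γ' s ∈ L a) {h : GL (Fin n) ℂ} (hh : (h : Mx n) ∈ P)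
    (h0 : (h : Mx n) ≠ 0) (hy : ∀ k e, P275BC.mt (γ' 0) k e * h = h * P275BC.mt (γ 0) k e) :
    ∃ ξ ∈ P, ∀ k e, P275BC.mt u' k e =
      ad h (P275BC.mt u k e) + (ξ * P275BC.mt (γ' 0) k e - P275BC.mt (γ' 0) k e * ξ) := by
  obtain ⟨a, ha, -⟩ := hm.self_of_nhds
  have hn : 0 < n := Nat.pos_of_ne_zero fun e => h0 (by subst e; exact Subsingleton.elim _ _)
  have d : ∀ m : Mx n, HasDerivAt (fun s => itw (γ s) (γ' s) m) (itw u u' m) 0 := fun m =>
    hasDerivAt_pi.2 fun i => by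
      have a1 := DM.mul (f := fun s => P275BC.mt (γ' s) i.1 i.2.1) (M := P275BC.mt u' i.1 i.2.1)
        (fun a c => hγ' _) (DM.const m)
      have a2 := (DM.const m).mul (f' := fun s => P275BC.mt (γ s) i.1 i.2.1)
        (M' := P275BC.mt u i.1 i.2.1) fun a c => hγ _
      simp only [Matrix.mul_zero, Matrix.zero_mul, add_zero, zero_add] at a1 a2
      exact (a1 _ _).fun_sub (a2 _ _)
  obtain ⟨m, e⟩ := inf (V := P.toSubmodule) (v0 := ⟨h, hh⟩)
    (A := fun s => (itw (γ s) (γ' s)).comp P.toSubmodule.subtype)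
    (fun m => (d m.1).continuousAt) (d h) (mt_ext fun k e => sub_eq_zero.2 (hy k e))
    (fun e => h0 (congrArg Subtype.val e)) (fun m e => by
      obtain ⟨c, hc⟩ := schur hn (irr F.gnc (F.sub a ha)) ((h⁻¹ : GL (Fin n) ℂ) * m.1) fun k b => by
        have : P275BC.mt (γ' 0) k b * m.1 = m.1 * P275BC.mt (γ 0) k b :=
          sub_eq_zero.1 (congrArg (P275BC.mt · k b) e)
        rw [Matrix.mul_assoc, ← this, Units.inv_mul_eq_iff_eq_mul, ← Matrix.mul_assoc, ← hy,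
          Matrix.mul_assoc, Units.mul_inv_cancel_left]
      refine ⟨c, Subtype.ext ?_⟩
      rw [Units.inv_mul_eq_iff_eq_mul, Matrix.mul_smul, Matrix.mul_one] at hc
      exact hc)
    (hm.mono fun s ⟨b, h1, h2⟩ => by
      obtain ⟨m, m1, m2, m3⟩ := F.orb b _ h1 _ h2
      exact ⟨⟨m, m1⟩, fun e => m2 (congrArg Subtype.val e), mt_ext fun k e => sub_eq_zero.2 (m3 k e)⟩)
  refine ⟨-(m.1 * (h⁻¹ : GL (Fin n) ℂ)), neg_mem (mul_mem m.2 (coe_units_inv h ▸ F.inv _ hh)),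
    fun k b => ?_⟩
  have e1 : P275BC.mt u' k b * h - h * P275BC.mt u k b =
      P275BC.mt (γ' 0) k b * m.1 - m.1 * P275BC.mt (γ 0) k b := congrArg (P275BC.mt · k b) e
  rw [← Units.mul_left_inj h, sub_eq_iff_eq_add.1 e1]
  simp only [ad, Matrix.add_mul, Matrix.sub_mul, Matrix.neg_mul, Matrix.mul_neg, Matrix.mul_assoc,
    Units.inv_mul, Matrix.mul_one, hy, Units.inv_mul_cancel_left]
  abel

theorem line_der {E ι : Type} [Fintype ι] [NormedAddCommGroup E] [NormedSpace ℂ E] {l : E → ι → ℂ}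
    {z : E} (hl : DifferentiableAt ℂ l z) (a : E) (i : ι) :
    HasDerivAt (fun s : ℂ => l (z + s • a) i) (fderiv ℂ l z a i) 0 :=
  hasDerivAt_pi.1 (hl.hasFDerivAt.comp_hasDerivAt_of_eq 0
    (by simpa using ((hasDerivAt_id (0 : ℂ)).smul_const a).const_add z) (by simp)) i

theorem line_ev {E : Type} [NormedAddCommGroup E] [NormedSpace ℂ E] {z : E} {p : E → Prop}
    (h : ∀ᶠ y in 𝓝 z, p y) (a : E) : ∀ᶠ s : ℂ in 𝓝 0, p (z + s • a) :=
  (show ContinuousAt (fun s : ℂ => z + s • a) 0 by fun_prop).eventually (by simpa using h)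

/-- **the form is basic** -/
theorem Fb.basic (F : Fb t P L) {E : Type} [NormedAddCommGroup E] [NormedSpace ℂ E]
    {l l' : E → Ix n g → ℂ} {z : E} (hl : DifferentiableAt ℂ l z) (hl' : DifferentiableAt ℂ l' z)
    (hm : ∀ᶠ y in 𝓝 z, ∃ a, l y ∈ L a ∧ l' y ∈ L a) (a b : E) :
    om (l' z) (fderiv ℂ l' z a) (fderiv ℂ l' z b) = om (l z) (fderiv ℂ l z a) (fderiv ℂ l z b) := by
  obtain ⟨c, h1, h2⟩ := hm.self_of_nhds
  obtain ⟨m, m1, m2, m3⟩ := F.orb c _ h1 _ h2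
  have m4 := un_val (det_of_irr (irr F.gnc (F.sub c h1)) m2 m3)
  rw [← m4] at m1 m2 m3
  have j := fun a => F.jet (line_der hl a) (line_der hl' a) (line_ev hm a) m1 m2 (by simpa using m3)
  obtain ⟨ξ, a1, a2⟩ := j a
  obtain ⟨η, b1, b2⟩ := j b
  have t1 := F.tan (line_der hl a) ((line_ev hm a).mono fun s ⟨c, h, _⟩ => ⟨c, h⟩)
  have t2 := F.tan (line_der hl' b) ((line_ev hm b).mono fun s ⟨c, _, h⟩ => ⟨c, h⟩)
  simp only [zero_smul, add_zero] at a2 b2 t1 t2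
  exact om_gauge (det_ne (F.sub c h1)) P F.inv m1 a1 b1 (F.mu c _ h2)
    (fun k e => by rw [ad, ← m3, Units.mul_inv_cancel_right]) a2 b2 t1 t2

end Vale.Agent.P275OM
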