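import Vale.Agent.P275OM.Ring
import Vale.Agent.P275OM.Bs
import Vale.Agent.P275MC.Glue

/-!
# P275 (helper20): the symplectic form on the quotient manifolds.
-/

set_option linter.all false

open scoped Manifold ContDiff Topology Matrix
open Filter Set
open Vale.Agent.P272.K Vale.Agent.P299.IX Vale.Agent.P299.IX.Fock Vale.Agent.P281Z
  Vale.Agent.P281Z.Hg Vale.Agent.P281Z.Hg.G1H Vale.Agent.P281Z.Hg.G2H Vale.Agent.P281Z.Hg.Pb1H
  Vale.Agent.P275MC Vale.Agent.P275KU

noncomputable section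

namespace Vale.Agent.P275OM

open P275BC (Ix om Rt Rz Gnc)
open Fr

variable {n g d : ℕ}

/-- the 2-form with coefficients `B` -/
def f2 {N : ℕ} (B : Fin N → Fin N → ℂ) : Fk N := (∑ p, ∑ q, B p q • (eps p * eps q)) *ᵥ ev ∅

theorem sum4 {α β γ δ E : Type} [Fintype α] [Fintype β] [Fintype γ] [Fintype δ] [AddCommMonoid E]
    (f : α → β → γ → δ → E) : ∑ i, ∑ k, ∑ p, ∑ q, f i k p q = ∑ p, ∑ q, ∑ i, ∑ k, f i k p q := by
  have h : ∀ i, ∑ k, ∑ p, ∑ q, f i k p q = ∑ p, ∑ q, ∑ k, f i k p q := fun i =>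
    Finset.sum_comm.trans (Finset.sum_congr rfl fun _ _ => Finset.sum_comm)
  simp only [h]
  exact Finset.sum_comm.trans (Finset.sum_congr rfl fun _ _ => Finset.sum_comm)

theorem lr_f2 {a b : ℕ} (J : Matrix (Fin a) (Fin b) ℂ) (B : Fin b → Fin b → ℂ) :
    lr J *ᵥ f2 B = f2 fun p q => ∑ i, ∑ k, J p i * J q k * B i k := by
  have h : lr J * ∑ p, ∑ q, B p q • (eps p * eps q) =
      (∑ p, ∑ q, (∑ i, ∑ k, J p i * J q k * B i k) • (eps p * eps q)) * lr J := by
    have e : ∀ p q, lr J * (eps p * eps q) = epsV (fun i => J i p) * epsV (fun i => J i q) * lr J :=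
      fun p q => by rw [← Matrix.mul_assoc, f1a.lr_eps, Matrix.mul_assoc, f1a.lr_eps,
        Matrix.mul_assoc]
    have e2 : ∑ p, ∑ q, B p q • (epsV (fun i => J i p) * epsV fun i => J i q) =
        ∑ p, ∑ q, (∑ i, ∑ k, J p i * J q k * B i k) • (eps p * eps q) := by
      simp only [epsV, Finset.sum_mul_sum, smul_mul_smul_comm, Finset.smul_sum, smul_smul,
        Finset.sum_smul]
      rw [sum4]
      simp only [mul_comm (B _ _)]
    rw [← e2]
    simp only [Matrix.mul_sum, Matrix.sum_mul, Matrix.mul_smul, Matrix.smul_mul, e]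
  rw [f2, Matrix.mulVec_mulVec, h, ← Matrix.mulVec_mulVec, f1a.lr_ev, f2]

theorem f2_HD {N : ℕ} (B : Fin N → Fin N → ℂ) : HD 2 (f2 B) := by
  simp only [f2, Matrix.sum_mulVec, Matrix.smul_mulVec, ← Matrix.mulVec_mulVec]
  refine HD.sum _ fun p _ => HD.sum _ fun q _ => HD.smul (HD.eps (k := 1) (HD.eps (k := 0) ?_ q) p) _
  exact fun I hI => Pi.single_eq_of_ne (fun e => hI (by simp [e])) _

/-- the pull-back of the 2-form by a map `l` -/
def omF (l : Cm d → Ix n g → ℂ) (z : Cm d) : Fo d :=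
  f2 fun p q => om (l z) (P281Z.Hg.Dv p l z) (P281Z.Hg.Dv q l z)

theorem omF_congr {l l' : Cm d → Ix n g → ℂ} {z : Cm d} (h : l =ᶠ[𝓝 z] l') :
    omF l z = omF l' z := by
  have : ∀ p, P281Z.Hg.Dv p l z = P281Z.Hg.Dv p l' z := fun p => funext fun i =>
    dr_congr p (h.mono fun y hy => congrFun hy i)
  simp only [omF, this, h.self_of_nhds]

theorem omF_comp {d' : ℕ} {ψ : Cm d → Cm d'} {l : Cm d' → Ix n g → ℂ} {z : Cm d}
    (hψ : DifferentiableAt ℝ ψ z) (hl : DifferentiableAt ℝ l (ψ z)) :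
    omF (fun y => l (ψ y)) z = lr (jc ψ z) *ᵥ omF l (ψ z) := by
  have : ∀ p, P281Z.Hg.Dv p (fun y => l (ψ y)) z = ∑ i, jc ψ z p i • P281Z.Hg.Dv i l (ψ z) :=
    fun p => funext fun i => by
      rw [Finset.sum_apply]
      exact k1b'.dr_comp (g := fun y => l y i) p hψ (differentiableAt_pi.1 hl i)
  simp only [omF, lr_f2, this, ← omL_apply, map_sum, map_smul, LinearMap.sum_apply,
    LinearMap.smul_apply, smul_eq_mul, Finset.mul_sum]
  congr 1
  funext p q
  rw [Finset.sum_comm]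
  exact Finset.sum_congr rfl fun _ _ => Finset.sum_congr rfl fun _ _ => by ring

/-- the holomorphic part of a coordinate vector -/
def hv (c : Fin (d + d)) : Cm d :=
  Fin.addCases (motive := fun _ => Cm d) (fun j => Pi.single j 1) (fun _ => 0) c

theorem dr_hol {f : Cm d → ℂ} {z : Cm d} (h : DifferentiableAt ℂ f z) (c : Fin (d + d)) :
    dr c f z = fderiv ℂ f z (hv c) := by
  have e : ∀ j, fderiv ℂ f z (Pi.single j Complex.I) = Complex.I * fderiv ℂ f z (Pi.single j 1) :=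
    fun j => by rw [← smul_eq_mul, ← map_smul, ← Pi.single_smul', smul_eq_mul, mul_one]
  induction c using Fin.addCases with
  | left j =>
    simp only [dr, hv, Fin.addCases_left, dz, h.fderiv_restrictScalars ℝ,
      ContinuousLinearMap.coe_restrictScalars', e]
    linear_combination (-fderiv ℂ f z (Pi.single j 1) / 2) * Complex.I_mul_I
  | right j =>
    simp only [dr, hv, Fin.addCases_right, dzb, h.fderiv_restrictScalars ℝ,
      ContinuousLinearMap.coe_restrictScalars', e, map_zero]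
    linear_combination (fderiv ℂ f z (Pi.single j 1) / 2) * Complex.I_mul_I

theorem Dv_hol {ι : Type} [Fintype ι] {l : Cm d → ι → ℂ} {z : Cm d} (h : DifferentiableAt ℂ l z)
    (c : Fin (d + d)) : P281Z.Hg.Dv c l z = fderiv ℂ l z (hv c) := funext fun i => by
  rw [fderiv_pi (differentiableAt_pi.1 h)]
  exact dr_hol (differentiableAt_pi.1 h i) c

section glob

variable {M : Type} [TopologicalSpace M] [ChartedSpace (Cm d) M] [IsManifold 𝓘(ℂ, Cm d) ω M]

theorem Sm.isUnit {f : Sm d M} (h : ∀ x, f.1 x ≠ 0) : IsUnit f :=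
  IsUnit.of_mul_eq_one ⟨fun x => (f.1 x)⁻¹, SmC.inv f.2 h⟩
    (Subtype.ext (funext fun x => mul_inv_cancel₀ (h x)))

/-- evaluation of smooth functions -/
def Sm.ev (x : M) : Sm d M →+* ℂ := (Pi.evalRingHom _ x).comp (Sm d M).subtype

theorem exists_unit {m : Type} [Fintype m] [DecidableEq m] {F : M → Matrix m m ℂ}
    (hF : ∀ a c, SmC d fun x => F x a c) (h : ∀ x, (F x).det ≠ 0) :
    ∃ X : (Matrix m m (Sm d M))ˣ, ∀ a c, (X.1 a c).1 = fun x => F x a c :=
  ⟨((Matrix.isUnit_iff_isUnit_det (Matrix.of fun a c => (⟨_, hF a c⟩ : Sm d M))).2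
    (Sm.isUnit fun x e => h x (((Sm.ev x).map_det _).symm.trans e))).unit, fun _ _ => rfl⟩

/-- the word form of a smooth family of invertible tuples -/
theorem exists_psi {s : M → Ix n g → ℂ} (hs : ∀ i, SmC d fun x => s x i)
    (h0 : ∀ x k b, (P275BC.mt (s x) k b).det ≠ 0) : ∃ w : SF d M,
      (∀ e x, At e x → vl w e (e x) = omF (fun z => s (e.symm z)) (e x)) ∧
      ∀ x, (∀ᶠ y in 𝓝 x, ∀ a c, c < a → P275BC.mu (s y) a c = 0) → dd d M w ∈ ZP x := by
  choose X hX using fun k b => exists_unit (F := fun x => P275BC.mt (s x) k b) (fun a c => hs _)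
    fun x => h0 x k b
  have h1 : ∀ x k b, P275BC.mt (s x) k b = (X k b).1.map (Sm.ev x) := fun x k b => by
    ext a c; exact (congrFun (hX k b a c) x).symm
  refine ⟨sf (2 • (cw fun k b => (dvF d M).σ (X k b)).a), fun e x h => ?_, fun x hx e h => ?_⟩
  · rw [← evH_one h, map_nsmul]
    refine (congrArg (· *ᵥ ev ∅) ((ptF h).ev_cw X (h1 x) (U := fun p =>
      P281Z.Hg.Dv p (fun z => s (e.symm z)) (e x)) fun p k b => ?_)).trans ?_
    · ext a c
      change _ = dr p (fun z => ((X k b).1 a c).1 (e.symm z)) (e x)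
      rw [hX]; rfl
    · rw [omF, e.left_inv h.2]; rfl
  · have h2 : ∀ y a c, ((cw X).1 a c).1 y = P275BC.mu (s y) a c := fun y a c => by
      have := map_cw ((ptF (ca (d := d) y)).vg) X
      rw [mu_eq (h0 y), show ux (s y) = fun k b => (ptF (ca (d := d) y)).vg (X k b) from
        funext₂ fun k b => un_eq (h1 y k b), ← this]
      rfl
    have h3 := (ptF h).ev_η (cw X) fun p a c hc => by
      refine Matrix.BlockTriangular.mul (b := id) (fun a c hc => ?_) (fun a c hc => ?_) hc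
      · change dr p (fun z => ((cw X).1 a c).1 (e.symm z)) (e x) = 0
        rw [dr_congr p (g := fun _ => 0) ((ev_src h hx).mono fun z hz => (h2 _ a c).trans
          (hz a c hc)), dr_const]
      · rw [Matrix.coe_units_inv]
        exact inv_up (gl_det _) (fun a c hc => (h2 x a c).trans (hx.self_of_nhds a c hc)) a c hc
    have h4 := congrArg (evH h) ((dwF d M).cw_closed fun k b => (dvF d M).σ (X k b))
    rw [show (cw fun k b => (dvF d M).σ (X k b)).g = cw X from map_cw Gh.π _, map_neg, map_nsmul,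
      show evH h _ = 0 from h3, neg_zero, ← Nat.cast_smul_eq_nsmul ℂ,
      smul_eq_zero_iff_right (by norm_num)] at h4
    rw [← sf_dF, ← evH_one h, map_nsmul, map_nsmul, show evH h (dF _) = 0 from h4, smul_zero,
      Matrix.zero_mulVec]

/-- a smooth germ extends to a global map with values in a given neighbourhood -/
theorem exists_glob [T2Space M] {ι : Type} [Fintype ι] {l : M → ι → ℂ} {x : M}
    (hl : ∀ᶠ y in 𝓝 x, ∀ e : Chart d M, At e y → ContDiffAt ℝ ∞ (fun z => l (e.symm z)) (e y))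
    {O : Set (ι → ℂ)} (hO : O ∈ 𝓝 (l x)) :
    ∃ s : M → ι → ℂ, (∀ i, SmC d fun y => s y i) ∧ (∀ y, s y ∈ O) ∧ s =ᶠ[𝓝 x] l := by
  obtain ⟨ε, h0, hε⟩ := Metric.mem_nhds_iff.1 hO
  have hc : ContinuousAt l x := by
    have he := ca (d := d) x
    exact ((hl.self_of_nhds _ he).continuousAt.comp ((chartAt (Cm d) x).continuousAt he.2)).congr
      ((chartAt (Cm d) x).eventually_left_inverse he.2 |>.mono fun y hy => congrArg l hy)
  obtain ⟨χ, c1, -, c3, c4, c5, c6⟩ := ex_bump (d := d)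
    (hl.and (hc.eventually (Metric.ball_mem_nhds _ h0)))
  refine ⟨fun y => l x + χ y • (l y - l x), fun i e y he => ?_, fun y => hε ?_,
    c6.mono fun y hy => by simp [hy]⟩
  · suffices H : ContDiffAt ℝ ∞ (fun z => l x + χ (e.symm z) • (l (e.symm z) - l x)) (e y) from
      contDiffAt_pi.1 H i
    by_cases hy : y ∈ tsupport χ
    · exact contDiffAt_const.add ((c1 e y he).smul (((c3 hy).1 e he).sub contDiffAt_const))
    · exact (contDiffAt_const (c := l x)).congr_of_eventuallyEq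
        ((ev_src he (notMem_tsupport_iff_eventuallyEq.1 hy)).mono fun z hz => by
          simp [show χ (e.symm z) = 0 from hz])
  · by_cases hy : y ∈ tsupport χ
    · exact (convex_ball _ _).add_smul_sub_mem (Metric.mem_ball_self h0) (c3 hy).2 ⟨c4 y, c5 y⟩
    · simpa [image_eq_zero_of_notMem_tsupport hy] using h0

end glob

theorem det_nhds {x : Ix n g → ℂ} (hx : ∀ k b, (P275BC.mt x k b).det ≠ 0) :
    {y : Ix n g → ℂ | ∀ k b, (P275BC.mt y k b).det ≠ 0} ∈ 𝓝 x :=
  eventually_all.2 fun k => eventually_all.2 fun b =>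
    have : Continuous fun y : Ix n g → ℂ => (P275BC.mt y k b).det :=
      Continuous.matrix_det (continuous_matrix fun a c => continuous_apply _)
    this.continuousAt.eventually_ne (hx k b)

theorem omF_an {l : Cm d → Ix n g → ℂ} {z : Cm d} (hl : AnalyticAt ℂ l z)
    (h0 : ∀ k b, (P275BC.mt (l z) k b).det ≠ 0) : ContDiffAt ℝ ∞ (omF l) z ∧
      ((∀ᶠ y in 𝓝 z, ∀ a c, c < a → P275BC.mu (l y) a c = 0) → dT (omF l) z = 0) := by
  obtain ⟨s, s1, s2, s3⟩ := exists_glob (d := d) (l := l) (hl.eventually_analyticAt.mono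
    fun y hy e he => by rw [at_self he]; exact (hy.contDiffAt (n := ∞)).restrict_scalars ℝ)
    (det_nhds h0)
  obtain ⟨w, w1, w2⟩ := exists_psi s1 s2
  have e : omF l =ᶠ[𝓝 z] vl w (OpenPartialHomeomorph.refl _) :=
    s3.eventually_nhds.mono fun y hy => ((w1 _ y (at_refl y)).trans (omF_congr hy)).symm
  refine ⟨((vl_isF w).sm _ z (at_refl z)).congr_of_eventuallyEq e, fun h => ?_⟩
  rw [ka.congr e]
  refine (dd_vl w (at_refl z)).symm.trans (w2 z ?_ _ (at_refl z))
  filter_upwards [h, s3] with y h1 h2 using h2 ▸ h1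

variable {X : Type} [TopologicalSpace X] [ChartedSpace (Cm d) X] {t : Fin n → ℂ}
  {P : Subalgebra ℂ (Mx n)} {L : X → Set (Ix n g → ℂ)} {w w' : SF d X} {s s' : X → Ix n g → ℂ}
  {x : X} {e : Chart d X}

variable (d) in
/-- `s` is a holomorphic lift near `x` -/
def Lf (L : X → Set (Ix n g → ℂ)) (s : X → Ix n g → ℂ) (x : X) : Prop :=
  AnV d s x ∧ ∀ᶠ y in 𝓝 x, s y ∈ L y

variable (d) in
/-- local holomorphic lifts exist -/
def Sc (L : X → Set (Ix n g → ℂ)) : Prop := ∀ x, ∃ s, Lf d L s x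

/-- `w` is the symplectic form -/
def IsOmg (L : X → Set (Ix n g → ℂ)) (w : SF d X) : Prop :=
  ∀ s x, Lf d L s x → ∀ e, At e x → vl w e (e x) = omF (fun z => s (e.symm z)) (e x)

theorem Fb.omF (F : Fb t P L) (h : Lf d L s x) (h' : Lf d L s' x) (he : At e x) :
    omF (fun z => s' (e.symm z)) (e x) = omF (fun z => s (e.symm z)) (e x) := by
  simp only [P275OM.omF, Dv_hol (h.1 e he).differentiableAt, Dv_hol (h'.1 e he).differentiableAt,
    F.basic (h.1 e he).differentiableAt (h'.1 e he).differentiableAt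
      ((ev_src he (h.2.and h'.2)).mono fun z hz => ⟨_, hz⟩)]

theorem IsOmg.uniq (h : IsOmg L w) (h' : IsOmg L w') (hs : Sc d L) : w = w' :=
  ext' fun e x he => let ⟨s, k⟩ := hs x; (h s x k e he).trans (h' s x k e he).symm

theorem IsOmg.deg (h : IsOmg L w) (hs : Sc d L) : w ∈ Dg d X 2 :=
  mem_Dg.2 fun e x he => let ⟨s, k⟩ := hs x; h s x k e he ▸ f2_HD _

theorem IsOmg.of_loc (F : Fb t P L) (h : ∀ x, ∃ s, Lf d L s x ∧ ∀ e, At e x →
    vl w e (e x) = omF (fun z => s (e.symm z)) (e x)) : IsOmg L w := fun s x hs e he =>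
  let ⟨s', k, k'⟩ := h x; (k' e he).trans (F.omF hs k he)

variable [IsManifold 𝓘(ℂ, Cm d) ω X]

theorem Lf.near (h : Lf d L s x) : ∀ᶠ y in 𝓝 x, Lf d L s y :=
  ((eventually_all.2 fun i => (h.1.hol i).near).mono fun y hy => AnV.pi hy).and h.2.eventually_nhds

theorem Fb.an (F : Fb t P L) (h : Lf d L s x) (he : At e x) :
    ContDiffAt ℝ ∞ (P275OM.omF fun z => s (e.symm z)) (e x) ∧
      dT (P275OM.omF fun z => s (e.symm z)) (e x) = 0 :=
  have k := (ev_src he h.2).mono fun z hz => F.sub _ hz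
  (omF_an (h.1 e he) (det_ne k.self_of_nhds)).imp_right fun H => H (k.mono fun z hz => hz.2.1)

theorem IsOmg.closed (h : IsOmg L w) (F : Fb t P L) (hs : Sc d L) : dd d X w = 0 :=
  ext' fun e x he => by
    obtain ⟨s, k⟩ := hs x
    rw [dd_vl w he, ka.congr (ev_at he (k.near.mono fun y hy hy' => h s y hy e hy'))]
    exact (F.an k he).2

theorem omF_chart {d' : ℕ} {Y : Type} [TopologicalSpace Y] [ChartedSpace (Cm d') Y] {f : Y → X}
    {y : Y} {c : Chart d' Y} (hf : SmA d' d f y) (hc : At c y) (he : At e (f y))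
    (h : AnV d s (f y)) : omF (fun z => s (f (c.symm z))) (c y) =
      lr (jc (fun z => e (f (c.symm z))) (c y)) *ᵥ omF (fun z => s (e.symm z)) (e (f y)) := by
  have := omF_comp (l := fun z => s (e.symm z)) ((hf.sm c e hc he).differentiableAt (by simp))
    (by rw [c.left_inv hc.2]; exact (h e he).differentiableAt.restrictScalars ℝ)
  rw [c.left_inv hc.2] at this
  rw [← this]
  exact omF_congr ((nearA hf.cont hc he).mono fun z hz => by simp only [e.left_inv hz.2.2.2])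

/-- **the symplectic form exists** -/
theorem Fb.exists (F : Fb t P L) (hs : Sc d L) :
    ∃ w : SF d X, IsOmg L w ∧ w ∈ Dg d X 2 ∧ dd d X w = 0 := by
  choose s k using id hs
  obtain ⟨w, hw⟩ := mkf (fun e z => P275OM.omF (fun y => s (e.symm z) (e.symm y)) z)
    (fun e x he => (F.an (k x) he).1.congr_of_eventuallyEq (ev_at he ((k x).near.mono
      fun y hy hy' => by simp only [e.left_inv hy'.2]; exact F.omF hy (k y) hy')))
    fun e e' x he he' => by
      rw [e.left_inv he.2, e'.left_inv he'.2]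
      exact omF_chart (f := id) (smA_of smo_id x) he he' (k x).1
  have h : IsOmg L w := .of_loc F fun x => ⟨s x, k x, fun e he => by
    rw [hw e he.1 _ (e.map_source he.2), e.left_inv he.2]⟩
  exact ⟨w, h, h.deg hs, h.closed F hs⟩

section pb

variable {d' : ℕ} {Y : Type} [TopologicalSpace Y] [ChartedSpace (Cm d') Y]
  [IsManifold 𝓘(ℂ, Cm d') ω Y] {f : Y → X} {y : Y}

theorem Lf.pb (h : Lf d L s (f y)) (hf : HolA d' d f y) :
    Lf d' (fun b => L (f b)) (fun b => s (f b)) y :=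
  ⟨AnV.pi fun i => hf.hol (h.1.hol i), hf.cont.eventually h.2⟩

theorem Sc.pb (h : Sc d L) (hf : HolM d' d f) : Sc d' fun b => L (f b) := fun y =>
  let ⟨_, k⟩ := h (f y); ⟨_, k.pb (hf.at y)⟩

theorem IsOmg.mono {L' : X → Set (Ix n g → ℂ)} (h : IsOmg L w) (e : ∀ a, L' a ⊆ L a) :
    IsOmg L' w := fun s x k => h s x ⟨k.1, k.2.mono fun y hy => e y hy⟩

/-- pull-back along a holomorphic map -/
theorem IsOmg.pb (h : IsOmg L w) (F : Fb t P L) (hs : Sc d L) (hf : HolM d' d f) :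
    IsOmg (fun b => L (f b)) (pb (smo_of_hol hf) w) :=
  .of_loc (F.comp f fun _ => subset_rfl) fun y => by
    obtain ⟨s, k⟩ := hs (f y)
    refine ⟨_, k.pb (hf.at y), fun c hc => ?_⟩
    rw [pb_vl _ w c _ y hc (ca _), h s _ k _ (ca _),
      omF_chart (smA_of_hol (hf.at y)) hc (ca _) k.1]

/-- compatibility of the forms with holomorphic maps -/
theorem IsOmg.pb_eq (h : IsOmg L w) (F : Fb t P L) (hs : Sc d L) (hf : HolM d' d f)
    {L' : Y → Set (Ix n g → ℂ)} {v : SF d' Y} (h' : IsOmg L' v) (hs' : Sc d' L')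
    (e : ∀ b, L' b ⊆ L (f b)) : P275MC.pb (smo_of_hol hf) w = v :=
  ((h.pb F hs hf).mono e).uniq h' hs'

end pb

theorem isDl_vl {f : X → ℂ} {hf : SmC d f} {θ : SF d X} (h : IsDl hf θ) (h0 : f x ≠ 0)
    (he : At e x) : vl θ e (e x) =
      epsV (fun c => dr c (fun z => f (e.symm z)) (e x) / f x) *ᵥ ev ∅ := by
  have := congrArg (vl · e (e x)) h
  simp only [wd_fn_vl _ _ he, dd_fn_vl _ he] at this
  rw [← inv_smul_smul₀ h0 (vl θ e (e x)), this, ← Matrix.smul_mulVec, ← epsV_smul]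
  congr 2
  funext c
  rw [Pi.smul_apply, smul_eq_mul, div_eq_inv_mul]

/-- **the form on a cell** -/
theorem IsOmg.log (h : IsOmg L w) {α β : Type} [Fintype α] [Fintype β] {W : X → α ⊕ β → ℂ}
    {l : (α ⊕ β → ℂ) → Ix n g → ℂ} {Ω : Matrix α α ℂ} (hW : ∀ x, AnV d W x)
    (h0 : ∀ x i, W x (Sum.inl i) ≠ 0) (hl : ∀ x, AnalyticAt ℂ l (W x)) (hL : ∀ x, l (W x) ∈ L x)
    (hΩ : ∀ x u v, om (l (W x)) (fderiv ℂ l (W x) u) (fderiv ℂ l (W x) v) = ∑ i, ∑ k, Ω i k *
      (u (Sum.inl i) / W x (Sum.inl i) * (v (Sum.inl k) / W x (Sum.inl k))))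
    {hf : ∀ i, SmC d fun x => W x (Sum.inl i)} {θ : α → SF d X} (hθ : ∀ i, IsDl (hf i) (θ i)) :
    w = ∑ i, ∑ k, Ω i k • wd (θ i) (θ k) := ext' fun e x he => by
  have h1 := (hW x e he).differentiableAt
  have h2 : ∀ p, P281Z.Hg.Dv p (fun z => l (W (e.symm z))) (e x) =
      fderiv ℂ l (W x) (P281Z.Hg.Dv p (fun z => W (e.symm z)) (e x)) := fun p => by
    have h3 := (hl (e.symm (e x))).differentiableAt
    rw [Dv_hol (h3.fun_comp' (f := fun z => W (e.symm z)) _ h1), Dv_hol h1,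
      fderiv_fun_comp (f := fun z => W (e.symm z)) _ h3 h1, e.left_inv he.2]
    rfl
  rw [h _ x ⟨(hW x).cmp (hl x), .of_forall hL⟩ e he, omF, e.left_inv he.2]
  simp only [h2, hΩ, vl_sum, vl_smul, wd_vl _ _ he, isDl_vl (hθ _) (h0 x _) he, wg_epsV,
    Matrix.mulVec_mulVec, ← Matrix.smul_mulVec, ← Matrix.sum_mulVec, f2]
  congr 1
  simp only [epsV, Finset.sum_mul_sum, smul_mul_smul_comm, Finset.smul_sum, smul_smul,
    Finset.sum_smul]
  rw [sum4]
  rfl

end Vale.Agent.P275OM
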