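import Vale.Agent.P275Z.Univ
import Vale.Agent.P275XB.Cpt
import Vale.Agent.P275DS.Om
import Vale.Agent.P275CW.Cwe
import Vale.Agent.P275KU.Cr
import Vale.Agent.P275CC.Hom
import Vale.Agent.P275RL.Pf
import Vale.Agent.P275NB.Bet
import Vale.Agent.P275OM.Fm
import Vale.Agent.P275MC.Gy

/-!
# P275 (helper20): the universal class on the character variety, definitions and blocks.
-/

set_option linter.all false

open scoped Manifold ContDiff Topology Real
open Filter Set Matrix
open P275CC (VB adj linv Nc)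
open Vale.Agent.P275RH (cwd)
open Vale.Agent.P275ST (Rep XB deg dimR)
open Vale.Agent.P275XB (Mt wd Irr cj NW Wd ep Ok)
open Vale.Agent.P275Z
open Vale.Agent.P272.K Vale.Agent.P275KU
open Vale.Agent.P281Z.Hg hiding Mt
open Vale.Agent.P275MC hiding wd

noncomputable section

namespace Vale.Agent.P275OM

/-- the free group -/
abbrev Gm (g : ℕ) : Type := FreeGroup (Fin g × Bool)

/-- a finite cover of a punctured curve with a cocycle of words, and a disc `D` around the
puncture with a coordinate `z` -/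
structure Wc (g : ℕ) (C : Type) [TopologicalSpace C] where
  M : ℕ
  U : Fin M → Set C
  op : ∀ a, IsOpen (U a)
  D : Set C
  opD : IsOpen D
  cov : ∀ c, c ∈ D ∨ ∃ a, c ∈ U a
  γ : Fin M → Fin M → C → Gm g
  lc : ∀ a b, ∀ c ∈ U a, c ∈ U b → ∀ᶠ y in 𝓝 c, γ a b y = γ a b c
  mul : ∀ a b e, ∀ c ∈ U a, c ∈ U b → c ∈ U e → γ a b c * γ b e c = γ a e c
  z : C → ℂ
  p : C
  mem : p ∈ D
  zp : z p = 0
  cov' : ∀ c, c ≠ p → ∃ a, c ∈ U a
  θ : Fin M → C → ℂ
  s : ℤ
  hs : s ≠ 0
  log : ∀ a, ∀ c ∈ U a, c ∈ D → Complex.exp (θ a c) = z c ∧ ContinuousAt (θ a) c ∧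
    ∀ b, c ∈ U b → ∃ m : ℤ, θ a c - θ b c = m * (2 * π * Complex.I) ∧ γ a b c = cwd g ^ (s * m)

namespace Wc

variable {g : ℕ} {C : Type} [TopologicalSpace C] (F : Wc g C)

/-- the cover of the curve -/
def V : Option (Fin F.M) → Set C
  | none => F.D
  | some a => F.U a

/-- the words -/
def w : Option (Fin F.M) → Option (Fin F.M) → C → Gm g
  | some a, some b => F.γ a b
  | _, _ => 1

theorem opV : ∀ k, IsOpen (F.V k)
  | none => F.opD
  | some a => F.op a

theorem covV (c : C) : ∃ k, c ∈ F.V k := (F.cov c).elim (fun h => ⟨none, h⟩) fun ⟨a, h⟩ => ⟨some a, h⟩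

variable {F} {c : C}

theorem lcw : ∀ {k l}, c ∈ F.V k → c ∈ F.V l → ∀ᶠ y in 𝓝 c, F.w k l y = F.w k l c
  | some a, some b, h, h' => F.lc a b c h h'
  | none, _, _, _ => .of_forall fun _ => rfl
  | some _, none, _, _ => .of_forall fun _ => rfl

theorem w_D {S : Subgroup (Gm g)} (hS : cwd g ∈ S) (hc : c ∈ F.D) :
    ∀ {k l}, c ∈ F.V k → c ∈ F.V l → F.w k l c ∈ S
  | some a, some b, h, h' => by
    obtain ⟨m, -, e⟩ := (F.log a c h hc).2.2 b h'
    exact (show F.γ a b c ∈ S from e ▸ zpow_mem hS _)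
  | none, _, _, _ => one_mem _
  | some _, none, _, _ => one_mem _

theorem w_mul {G : Type*} [Monoid G] {r : Gm g →* G} (h : r (cwd g) = 1) {k l m}
    (hk : c ∈ F.V k) (hl : c ∈ F.V l) (hm : c ∈ F.V m) :
    r (F.w k l c) * r (F.w l m c) = r (F.w k m c) := by
  by_cases hc : c ∈ F.D
  · have := fun k l => @w_D _ _ _ F c r.ker h hc k l
    rw [this _ _ hk hl, this _ _ hl hm, this _ _ hk hm, one_mul]
  · obtain _ | k := k
    · exact absurd hk hc
    obtain _ | l := l
    · exact absurd hl hc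
    obtain _ | m := m
    · exact absurd hm hc
    exact (map_mul r _ _).symm.trans (congrArg r (F.mul k l m c hk hl hm))

theorem w_self : ∀ {k}, c ∈ F.V k → F.w k k c = 1
  | none, _ => rfl
  | some a, h => mul_eq_left.1 (F.mul a a a c h h h)

variable (F) in
/-- the bundle given by a family of representations -/
def vb {X J : Type} [TopologicalSpace X] [Fintype J] [DecidableEq J]
    (r : X → Gm g →* Matrix J J ℂ) (hr : ∀ w, Continuous fun x => r x w)
    (h1 : ∀ x, r x (cwd g) = 1) : VB (X × C) J where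
  ι := Option (Fin F.M)
  U k := Prod.snd ⁻¹' F.V k
  op k := (F.opV k).preimage continuous_snd
  cov y := F.covV y.2
  g k l y := r y.1 (F.w k l y.2)
  ct k l y h := (((hr (F.w k l y.2)).comp continuous_fst).continuousAt.congr
    (((continuous_snd.tendsto y).eventually (lcw h.1 h.2)).mono fun t e =>
      congrArg (r t.1) e.symm)).continuousWithinAt
  id k y h := by rw [w_self h, map_one]
  cc k l m y := w_mul (h1 _)

end Wc

section big

variable {ι : Type} [Fintype ι] {n : ℕ} {x y : ι → Mt n}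

/-- the matrix of `a ↦ (tr (w a))_w` -/
def tau (x : ι → Mt n) : Matrix (Fin (NW ι n)) (Fin n × Fin n) ℂ :=
  of fun k p => wd x ((Finite.equivFin (Wd ι n)).symm k).1 p.2 p.1

/-- the index set -/
abbrev Jx (ι : Type) (n : ℕ) : Type := Fin (NW ι n) ⊕ Fin n × Fin n

/-- an involution -/
def inv2 {W N R : Type} [Fintype N] [DecidableEq W] [Ring R] (i : Matrix W N R) (p : Matrix N W R) :
    Matrix (W ⊕ N) (W ⊕ N) R := fromBlocks (1 - i * p) i p 0

theorem inv2_mul {W N R : Type} [Fintype N] [Fintype W] [DecidableEq W] [Ring R]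
    {i i' : Matrix W N R} {p p' : Matrix N W R} [DecidableEq N] (h : p' * i' = 1)
    (e : i * p = i' * p') (h' : p * i = 1) :
    inv2 i p * inv2 i' p' = fromBlocks (1 - i * p + i * p') 0 0 (p * i') := by
  have a : i * p * i' = i' := by rw [e, Matrix.mul_assoc, h, Matrix.mul_one]
  have b : p * (i * p) = p := by rw [← Matrix.mul_assoc, h', Matrix.one_mul]
  simp only [inv2, fromBlocks_multiply, ← e, Matrix.sub_mul, Matrix.mul_sub, Matrix.one_mul,
    Matrix.mul_one, Matrix.mul_zero, Matrix.zero_mul, add_zero, a, b, sub_self, Matrix.mul_assoc i p,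
    sub_zero]

theorem inv2_sq {W N R : Type} [Fintype N] [Fintype W] [DecidableEq W] [Ring R]
    {i : Matrix W N R} {p : Matrix N W R} [DecidableEq N] (h : p * i = 1) :
    inv2 i p * inv2 i p = 1 := by
  rw [inv2_mul h rfl h, sub_add_cancel, h, fromBlocks_one]

/-- the involution of a tuple -/
def hh (x : ι → Mt n) : Matrix (Jx ι n) (Jx ι n) ℂ := inv2 (tau x) (linv (tau x))

/-- the adjoint action, in a frame which does not depend on the representative -/
def big (x : ι → Mt n) (m : Mt n) : Matrix (Jx ι n) (Jx ι n) ℂ :=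
  hh x * fromBlocks 1 0 0 (adj m) * hh x

theorem tau_mulVec (x : ι → Mt n) (a : Mt n) (k : Fin (NW ι n)) :
    (tau x *ᵥ fun p => a p.1 p.2) k = (a * wd x ((Finite.equivFin (Wd ι n)).symm k).1).trace := by
  simp only [tau, mulVec, dotProduct, of_apply, trace, diag, mul_apply, Fintype.sum_prod_type,
    mul_comm]

theorem tau_inj (h : Irr x) : Function.Injective (tau x).mulVec :=
  (injective_iff_map_eq_zero (tau x).mulVecLin).2 fun v e => by
    have := h.eq_zero (a := of fun p q => v (p, q)) fun l hl => by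
      have := (tau_mulVec x (of fun p q => v (p, q)) (Finite.equivFin (Wd ι n) ⟨l, by omega⟩)).symm
      rw [Equiv.symm_apply_apply] at this
      exact this.trans (congrFun e _)
    exact funext fun p => congrFun (congrFun this p.1) p.2

theorem pi_tau (h : Irr x) : linv (tau x) * tau x = 1 := P275CC.linv_mul (tau_inj h)

theorem adj_mulVec (m a : Mt n) :
    (adj m *ᵥ fun p => a p.1 p.2) = fun p => (m * a * m⁻¹) p.1 p.2 := funext fun p => by
  simp only [adj, mulVec, dotProduct, kroneckerMap_apply, transpose_apply, mul_apply,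
    Fintype.sum_prod_type, Finset.sum_mul]
  rw [Finset.sum_comm]
  exact Finset.sum_congr rfl fun _ _ => Finset.sum_congr rfl fun _ _ => by ring

theorem tau_cj (u : GL (Fin n) ℂ) (x : ι → Mt n) : tau (cj u x) * adj (u : Mt n) = tau x :=
  P275CC.ext_mulVec fun v => funext fun k => by
    have := tau_mulVec x (of fun p q => v (p, q)) k
    have h2 := adj_mulVec u (of fun p q => v (p, q))
    rw [← mulVec_mulVec]
    refine (congrArg (fun t => (tau (cj u x) *ᵥ t) k) h2).trans ((tau_mulVec _ _ k).trans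
      (Eq.trans ?_ this.symm))
    rw [P275XB.wd_cj, ← coe_units_inv, ← trace_units_conj u (_ * wd x _)]
    simp only [Matrix.mul_assoc, Units.inv_mul_cancel_left]

theorem adj_det {m : Mt n} (h : m.det ≠ 0) : (adj m).det ≠ 0 := by
  have := congrArg det (P275CC.adj_mul m m⁻¹)
  rw [mul_nonsing_inv _ h.isUnit, P275CC.adj_one, det_one, det_mul] at this
  exact left_ne_zero_of_mul_eq_one this.symm

theorem linv_mul_right {W N : Type} [Fintype N] [Fintype W] [DecidableEq W] [DecidableEq N]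
    (i : Matrix W N ℂ) {A : Matrix N N ℂ} (h : A.det ≠ 0) : A * linv (i * A) = linv i := by
  have h' : IsUnit Aᴴ.det := by rw [det_conjTranspose]; exact h.isUnit.star
  rw [linv, conjTranspose_mul, show Aᴴ * iᴴ * (i * A) = Aᴴ * (iᴴ * i * A) by
    simp only [Matrix.mul_assoc], Matrix.mul_inv_rev, Matrix.mul_inv_rev, Matrix.mul_assoc,
    nonsing_inv_mul_cancel_left _ _ h', Matrix.mul_assoc, mul_nonsing_inv_cancel_left _ _ h.isUnit,
    linv]

theorem pi_cj (u : GL (Fin n) ℂ) (x : ι → Mt n) :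
    adj (u : Mt n) * linv (tau x) = linv (tau (cj u x)) := by
  rw [← tau_cj u x, linv_mul_right _ (adj_det u.det_ne_zero)]

theorem proj_cj (u : GL (Fin n) ℂ) (x : ι → Mt n) :
    tau (cj u x) * linv (tau (cj u x)) = tau x * linv (tau x) := by
  rw [← pi_cj, ← Matrix.mul_assoc, tau_cj]

theorem hh_sq (h : Irr x) : hh x * hh x = 1 := inv2_sq (pi_tau h)

theorem hh_cj (h : Irr x) (u : GL (Fin n) ℂ) : hh (cj u x) * hh x = fromBlocks
    (1 - tau x * linv (tau x) + tau (cj u x) * linv (tau x)) 0 0 (adj (u : Mt n)) := by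
  rw [hh, hh, inv2_mul (pi_tau h) (proj_cj u x) (pi_tau (h.cj u)), proj_cj, ← pi_cj,
    Matrix.mul_assoc, pi_tau h, Matrix.mul_one]

theorem big_eq (h : Irr x) (m : Mt n) : big x m =
    fromBlocks (1 - tau x * linv (tau x) + tau x * adj m * linv (tau x)) 0 0 1 := by
  have b := pi_tau h
  have a : linv (tau x) * (tau x * linv (tau x)) = linv (tau x) := by
    rw [← Matrix.mul_assoc, b, Matrix.one_mul]
  simp only [big, hh, inv2, fromBlocks_multiply, Matrix.sub_mul, Matrix.mul_sub, Matrix.one_mul,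
    Matrix.mul_one, Matrix.mul_zero, Matrix.zero_mul, add_zero, zero_add, a, b, sub_self, sub_zero,
    Matrix.mul_assoc]

theorem big_cj (h : Irr x) (u : GL (Fin n) ℂ) (m : Mt n) :
    big (cj u x) (u * m * (u⁻¹ : GL (Fin n) ℂ)) = big x m := by
  rw [big_eq h, big_eq (h.cj u), proj_cj, ← pi_cj u x, ← Matrix.mul_assoc, Matrix.mul_assoc (tau _),
    ← P275CC.adj_mul, Units.inv_mul_cancel_right, P275CC.adj_mul, ← Matrix.mul_assoc, tau_cj]

theorem big_one (h : Irr x) : big x 1 = 1 := by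
  rw [big, P275CC.adj_one, fromBlocks_one, Matrix.mul_one, hh_sq h]

theorem big_mul (h : Irr x) (m m' : Mt n) : big x (m * m') = big x m * big x m' := by
  simp only [big, Matrix.mul_assoc]
  rw [← Matrix.mul_assoc (hh x) (hh x), hh_sq h, Matrix.one_mul, ← Matrix.mul_assoc (fromBlocks _ _ _ _),
    fromBlocks_multiply, P275CC.adj_mul]
  simp

end big

variable {g n : ℕ} {d : ℤ} [Ok g n d]

theorem wv_rep (ρ : Rep g n d) : wv ρ.1 (cwd g) = P275ST.zeta n d • 1 :=
  (P275NB.wv_cwd _).trans ρ.2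

/-- the family of representations on the character variety -/
def bg : XB g n d → Gm g →* Matrix (Jx (Fin g × Bool) n) (Jx (Fin g × Bool) n) ℂ :=
  Quot.lift (fun ρ =>
    { toFun := fun w => big (ep ρ) (wv ρ.1 w)
      map_one' := by rw [P275RL.wv_one, big_one (P275XB.irr_ep ρ)]
      map_mul' := fun a b => by rw [P275RL.wv_mul, big_mul (P275XB.irr_ep ρ)] })
    fun ρ ρ' ⟨P, h⟩ => MonoidHom.ext fun w => by
      obtain rfl : ρ' = P275XB.act P ρ := Subtype.ext (funext h)
      refine (big_cj (P275XB.irr_ep ρ) (SpecialLinearGroup.toGL P) _).symm.trans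
        (congrArg (big _) (Units.mul_inv_eq_iff_eq_mul _ |>.2 (P275RL.wv_semi (fun s => ?_) w).symm))
      exact congrArg Subtype.val (inv_mul_cancel_right (P * ρ.1 s) P)

theorem bg_pt (ρ : Rep g n d) (w : Gm g) : bg ρ.pt w = big (ep ρ) (wv ρ.1 w) := rfl

theorem bg_cwd (x : XB g n d) : bg x (cwd g) = 1 := by
  obtain ⟨ρ, rfl⟩ := Quot.exists_rep x
  refine (bg_pt ρ _).trans ?_
  rw [wv_rep, big, P275CC.adj_smul (c := P275ST.zeta n d) (Complex.exp_ne_zero _) (by simp)]
  exact big_one (P275XB.irr_ep ρ)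

theorem ct_tau {T ι : Type} [TopologicalSpace T] [Fintype ι] {x : T → ι → Mt n} {s : Set T}
    (h : ∀ i, ContinuousOn (fun t => x t i) s) : ContinuousOn (fun t => tau (x t)) s := by
  have : ∀ l, ContinuousOn (fun t => wd (x t) l) s := fun l => by
    induction l with
    | nil => exact continuousOn_const
    | cons i l ih => simp only [P275XB.wd_cons]; exact P275CC.ctOn_mul (h i) ih
  exact continuousOn_pi.2 fun k => continuousOn_pi.2 fun p => P275CC.ctOn_ent (this _) _ _

theorem ct_blk {T W N : Type} [TopologicalSpace T] {s : Set T} {a : T → Matrix W W ℂ}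
    {b : T → Matrix W N ℂ} {c : T → Matrix N W ℂ} {e : T → Matrix N N ℂ} (ha : ContinuousOn a s)
    (hb : ContinuousOn b s) (hc : ContinuousOn c s) (he : ContinuousOn e s) :
    ContinuousOn (fun t => fromBlocks (a t) (b t) (c t) (e t)) s :=
  continuousOn_iff_continuous_restrict.2 (ha.restrict.matrix_fromBlocks hb.restrict hc.restrict
    he.restrict)

theorem ct_hh {T ι : Type} [TopologicalSpace T] [Fintype ι] {x : T → ι → Mt n} {s : Set T}
    (h : ∀ i, ContinuousOn (fun t => x t i) s) (hi : ∀ t ∈ s, Irr (x t)) :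
    ContinuousOn (fun t => hh (x t)) s :=
  have a := ct_tau h
  have b := P275CC.ctOn_linv a fun t m => tau_inj (hi t m)
  ct_blk (continuousOn_const.sub (P275CC.ctOn_mul a b)) a b continuousOn_const

theorem ct_bg (w : Gm g) : Continuous fun x : XB g n d => bg x w :=
  isQuotientMap_quot_mk.continuous_iff.2 <| continuousOn_univ.1 <| by
    have a : ContinuousOn (fun ρ : Rep g n d => hh (ep ρ)) univ := ct_hh (fun i =>
      (continuous_subtype_val.comp ((continuous_apply i).comp continuous_subtype_val)).continuousOn)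
      fun ρ _ => P275XB.irr_ep ρ
    exact P275CC.ctOn_mul (P275CC.ctOn_mul a (ct_blk continuousOn_const continuousOn_const
      continuousOn_const (P275CC.ctOn_adj ((P275RL.wv_cont w).comp
        continuous_subtype_val).continuousOn fun ρ _ => P275RL.wv_det_ne _ _))) a

/-- the character variety as the space of flat bundles -/
def _root_.Vale.Agent.P275Z.Sit.Brg.s1 {S : Sit} (B : S.Brg) :
    C(XB S.g S.n (deg S.D), B.T.M (tauX S.n)) :=
  B.sg.comp ⟨fun x => (1, x), continuous_const.prodMk continuous_id⟩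

/-- **TOPB**: the endomorphisms of the universal bundle over the character variety -/
def TOPB : Prop := ∀ (S : Sit) (B : S.Brg) [P275MM.Hy B.T.A B.T.l S.n]
  (Sy : P275MM.Sys B.T.A B.T.l (tauX S.n) (XB S.g S.n (deg S.D))), Sy.f = B.s1 →
  ∃ (F : Wc S.g S.C) (k : Fin B.T.A.N) (V : VB (XB S.g S.n (deg S.D)) (Fin (NW (Fin S.g × Bool) S.n))),
    F.D ⊆ (B.T.A.e k).source ∧ (∀ c, F.z c = B.T.A.e k c - B.T.A.e k F.p) ∧
    (F.vb bg ct_bg bg_cwd).Iso (VB.sum (V.pb ContinuousMap.fst) Sy.tb.End)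

/-- **NVC**: the integral of `dχ ∧ dz / z` -/
def NVC : Prop := ∀ (C : Type) [TopologicalSpace C] [ChartedSpace (Cm 1) C]
  [IsManifold 𝓘(ℂ, Cm 1) ω C] [T2Space C] (e : Chart 1 C) (_ : e ∈ atlas (Cm 1) C) (K : Set C)
  (_ : IsCompact K) (_ : K ⊆ e.source) (p : C) (_ : p ∈ K) (χ : C → ℂ) (hχ : SmC 1 χ)
  (_ : ∀ᶠ c in 𝓝 p, χ c = 0) (_ : ∀ c ∉ K, χ c = 1) (κ : SF 1 C) (_ : κ ∈ Sp 1 K),
  (∀ c ∈ K, c ≠ p → ∃ (l : C → ℂ) (hl : SmC 1 l),
    (∀ᶠ y in 𝓝 c, Complex.exp (l y) = e y 0 - e p 0) ∧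
      κ - P275MC.wd (dd 1 C (fn hχ)) (dd 1 C (fn hl)) ∈ ZP c) → κ ∈ ZP p → itc 1 C κ ≠ 0

/-- the form defined by a family of tuples -/
def Omg {g d : ℕ} {M J : Type} [TopologicalSpace M] [ChartedSpace (Cm d) M]
    [IsManifold 𝓘(ℂ, Cm d) ω M] [Fintype J] [DecidableEq J]
    (X : Fin g × Bool → (Matrix J J (Sm d M))ˣ) : Fr d M :=
  (cw fun k b => (dvF d M).σ (X (k, b))).a

attribute [local instance] Prod.prodCS Prod.isManifold_prod

/-- **CFC**: the integral over the curve of the second form of a family of flat bundles -/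
def CFC (h : MV0 ∧ LHP) : Prop := ∀ (g : ℕ) (C : Type) [TopologicalSpace C] [ChartedSpace (Cm 1) C]
  [IsManifold 𝓘(ℂ, Cm 1) ω C] [T2Space C] [CompactSpace C] [SecondCountableTopology C]
  (F : Wc g C) (e : Chart 1 C), e ∈ atlas (Cm 1) C → F.D ⊆ e.source →
  (∀ c, F.z c = e c 0 - e F.p 0) → ∃ c : ℂ, c ≠ 0 ∧ ∀ (d : ℕ) (M : Type) [TopologicalSpace M]
    [ChartedSpace (Cm d) M] [IsManifold 𝓘(ℂ, Cm d) ω M] [T2Space M] [SecondCountableTopology M]
    [Nc (M × C)] (J : Type) [Fintype J] [DecidableEq J]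
    (X : Fin g × Bool → (Matrix J J (Sm d M))ˣ) (r : M → Gm g →* Matrix J J ℂ) hr h1,
    (∀ x s, r x (FreeGroup.of s) = (X s).1.map (Sm.ev x)) →
    ∀ a : P275AR.Act (univ : Set M) univ (pb (smo_fst (n := d) (m := 1) (X := M) (Y := C))),
      gys a ((thOf h).p2 (F.vb r hr h1)).1 = c • P275CW.cF (Omg X)

/-- **OMB**: the form of the adjoint family is the symplectic form -/
def OMB : Prop := ∀ (g n : ℕ) (d : ℤ) [Ok g n d] (w : SF (2 * dimR g n) (XB g n d)),
  IsOmg (P275DS.LX g n d) w →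
  ∃ X : Fin g × Bool → (Matrix (Jx (Fin g × Bool) n) (Jx (Fin g × Bool) n)
    (Sm (2 * dimR g n) (XB g n d)))ˣ,
    (∀ x s, bg x (FreeGroup.of s) = (X s).1.map (Sm.ev x)) ∧ Omg X = (n : ℂ) • Fr.of w

end Vale.Agent.P275OM
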