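import Vale.Agent.P275OM.Gh
import Vale.Agent.P275OM.Rk

/-!
# P275 (helper20): the differential of the word form, and its values at a point.
-/

set_option linter.all false

open Matrix

namespace Vale.Agent.P275OM

open P275BC hiding mt
open P275BC.HG

variable {R A : Type*} [CommRing R] [Ring A]

/-- an exterior derivative -/
structure Dw (D : Dv R A) where
  δ : A →+ A
  one : δ 1 = 0
  fn : ∀ a x, δ (D.φ a * x) = D.d a * x + D.φ a * δ x
  df : ∀ a x, δ (D.d a * x) = -(D.d a * δ x)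

section closed

variable {D : Dv R A} (E : Dw D) {n : Type*} [Fintype n] [DecidableEq n]

theorem Dw.d_d (a : R) : E.δ (D.d a) = 0 := by
  have := E.df a 1
  rwa [mul_one, E.one, mul_zero, neg_zero] at this

theorem Dw.od {x : A} (hx : x ∈ D.Od) (y : A) : E.δ (x * y) = E.δ x * y - x * E.δ y := by
  induction hx using AddSubgroup.closure_induction with
  | mem x h =>
    obtain ⟨a, b, rfl⟩ := h
    rw [mul_assoc, E.fn, E.df, E.fn, E.d_d]
    noncomm_ring
  | zero => simp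
  | add x z _ _ hx hz => rw [add_mul, map_add, hx, hz, map_add]; noncomm_ring
  | neg x _ hx => rw [neg_mul, map_neg, hx, map_neg]; noncomm_ring

/-- the exterior derivative of a matrix -/
def Dw.δm : Matrix n n A →+ Matrix n n A := E.δ.mapMatrix

theorem Dw.δm_apply (X : Matrix n n A) (i j : n) : E.δm X i j = E.δ (X i j) := rfl

theorem Dw.tr (X : Matrix n n A) : E.δ (trace X) = trace (E.δm X) := map_sum E.δ _ _

theorem Dw.δm_od {X : Matrix n n A} (h : D.Om X) (Y : Matrix n n A) :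
    E.δm (X * Y) = E.δm X * Y - X * E.δm Y := by
  ext i j
  simp only [δm_apply, mul_apply, Matrix.sub_apply, map_sum, E.od (h _ _), Finset.sum_sub_distrib]

theorem Dw.δm_m (f : Matrix n n R) (Y : Matrix n n A) :
    E.δm (D.m f * Y) = D.dm f * Y + D.m f * E.δm Y := by
  ext i j
  simp only [δm_apply, mul_apply, Matrix.add_apply, map_sum, D.m_apply, D.dm_apply, E.fn,
    Finset.sum_add_distrib]

theorem Dw.δm_dm (f : Matrix n n R) : E.δm (D.dm f) = 0 := by
  ext i j; exact E.d_d _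

theorem Dw.δm_u (f : Matrix n n R) : E.δm (D.m f) = D.dm f := by
  ext i j
  have := E.fn (f i j) 1
  rwa [mul_one, mul_one, E.one, mul_zero, add_zero] at this

theorem Dv.dm_inv (D : Dv R A) (f : (Matrix n n R)ˣ) :
    D.dm (f⁻¹ : (Matrix n n R)ˣ) = -(D.L f * D.u f⁻¹) := by
  rw [← neg_mul, ← D.R_inv, Dv.Rr, mul_assoc, inv_inv, D.u_mul_inv, mul_one]

theorem Dw.δ_L (f : (Matrix n n R)ˣ) : E.δm (D.L f) = -(D.L f * D.L f) := by
  conv_lhs => rw [Dv.L, D.u_eq, E.δm_m, E.δm_dm, D.dm_inv]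
  rw [mul_zero, add_zero, neg_mul, mul_assoc]; rfl

theorem Dw.δ_R (f : (Matrix n n R)ˣ) : E.δm (D.Rr f) = D.Rr f * D.Rr f := by
  have := E.δ_L f⁻¹
  rwa [D.L_inv, map_neg, neg_mul_neg, neg_inj] at this

variable (D) in
/-- the three-form -/
def Dv.η (f : (Matrix n n R)ˣ) : A := trace (D.L f * D.L f * D.L f)

theorem Dv.η_R (f : (Matrix n n R)ˣ) : D.η f = trace (D.Rr f * D.Rr f * D.Rr f) := by
  rw [Dv.η, ← D.tr_conj f, D.R_eq]
  simp only [mul_assoc, D.u_cancel']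

theorem Dw.η_mul (f g : (Matrix n n R)ˣ) :
    3 • E.δ (D.c f g) + D.η (f * g) = D.η f + D.η g := by
  have e : D.L (f * g) = D.u g⁻¹ * (D.L f + D.Rr g) * D.u g⁻¹⁻¹ := by
    rw [D.L_mul, inv_inv, mul_add, add_mul, D.R_eq g, ← mul_assoc, D.u_cancel', mul_assoc (D.L g),
      D.u_inv_mul, mul_one]
  have e2 : D.η (f * g) = trace ((D.L f + D.Rr g) * (D.L f + D.Rr g) * (D.L f + D.Rr g)) := by
    rw [← D.tr_conj g⁻¹, Dv.η, e]
    simp only [mul_assoc, inv_inv, D.u_cancel]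
  have a := D.om_L f
  have b := D.om_R g
  rw [e2, Dv.c, E.tr, E.δm_od a, E.δ_L, E.δ_R, D.η_R g, Dv.η]
  simp only [mul_add, add_mul, neg_mul, trace_add, trace_sub, trace_neg, ← mul_assoc]
  rw [b.tr_cyc a a, a.tr_cyc b a, b.tr_cyc a a, b.tr_cyc a b, b.tr_cyc b a, b.tr_cyc a b]
  abel

/-- the additive character of the central extension -/
def Dw.θ : Gh D n →* Multiplicative A where
  toFun F := Multiplicative.ofAdd (3 • E.δ F.a + D.η F.g)
  map_one' := by simp [Dv.η, D.L_one]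
  map_mul' F G := by
    rw [← ofAdd_add, Gh.mul_a, Gh.mul_g, E.δ.map_add, E.δ.map_add, smul_add,
      add_assoc (3 • (_ + _)), E.η_mul]
    congr 1
    rw [smul_add]; abel

theorem Dw.cw_closed {g : ℕ} (X : Fin g → Bool → Gh D n) :
    3 • E.δ (cw X).a = -D.η (cw X).g := by
  have := map_cw E.θ X
  rw [cw_comm] at this
  exact eq_neg_of_add_eq_zero_left this

end closed

/-- a point with a family of tangent vectors -/
structure Pt (D : Dv R A) (B I : Type*) [Ring B] [Algebra ℂ B] [Fintype I] where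
  pt : R →+* ℂ
  dr : I → R →+ ℂ
  lb : ∀ p a b, dr p (a * b) = pt a * dr p b + pt b * dr p a
  ev : A →+* B
  e : I → B
  anti : ∀ p q, e p * e q = -(e q * e p)
  ev_φ : ∀ a, ev (D.φ a) = pt a • 1
  ev_d : ∀ a, ev (D.d a) = ∑ p, dr p a • e p

namespace Pt

variable {D : Dv R A} {B I : Type*} [Ring B] [Algebra ℂ B] [Fintype I] (P : Pt D B I) {n : ℕ}

/-- the value of an invertible matrix -/
noncomputable def vg : (Matrix (Fin n) (Fin n) R)ˣ →* GL (Fin n) ℂ :=
  Units.map P.pt.mapMatrix.toMonoidHom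

theorem vg_val (f : (Matrix (Fin n) (Fin n) R)ˣ) : (P.vg f : Mx n) = f.1.map P.pt := rfl

/-- the right logarithmic derivative -/
noncomputable def ra (p : I) (f : (Matrix (Fin n) (Fin n) R)ˣ) : Mx n :=
  f.1.map (P.dr p) * ((P.vg f)⁻¹ : GL (Fin n) ℂ)

theorem dr_mul (p : I) (f g : Matrix (Fin n) (Fin n) R) :
    (f * g).map (P.dr p) = f.map (P.dr p) * g.map P.pt + f.map P.pt * g.map (P.dr p) := by
  ext i j
  simp only [map_apply, mul_apply, Matrix.add_apply, map_sum, P.lb, ← Finset.sum_add_distrib]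
  exact Finset.sum_congr rfl fun k _ => by ring

theorem ra_mul (p : I) (f g : (Matrix (Fin n) (Fin n) R)ˣ) :
    P.ra p (f * g) = P.ra p f + ad (P.vg f) (P.ra p g) := by
  simp only [ra, Units.val_mul, dr_mul, map_mul, _root_.mul_inv_rev, ← vg_val, ad, Matrix.add_mul,
    Matrix.mul_assoc, Units.mul_inv_cancel_left]

theorem ra_one (p : I) : P.ra p (1 : (Matrix (Fin n) (Fin n) R)ˣ) = 0 := by
  have := P.ra_mul p (1 : (Matrix (Fin n) (Fin n) R)ˣ) 1
  rw [mul_one, map_one, ad_one] at this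
  exact left_eq_add.1 this

theorem ra_inv (p : I) (f : (Matrix (Fin n) (Fin n) R)ˣ) :
    P.ra p f⁻¹ = -ad (P.vg f)⁻¹ (P.ra p f) := by
  have := P.ra_mul p f⁻¹ f
  rw [inv_mul_cancel, ra_one, map_inv] at this
  exact eq_neg_of_add_eq_zero_left this.symm

theorem ev_R (f : (Matrix (Fin n) (Fin n) R)ˣ) (i j : Fin n) :
    P.ev (D.Rr f i j) = ∑ p, P.ra p f i j • P.e p := by
  simp only [Dv.Rr, ra, mul_apply, map_sum, map_mul, D.u_eq, D.m_apply, D.dm_apply, P.ev_φ, P.ev_d,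
    ← map_inv, vg_val, map_apply, Finset.sum_smul, mul_smul_comm, mul_one, Finset.smul_sum,
    smul_smul]
  rw [Finset.sum_comm]
  exact Finset.sum_congr rfl fun p _ => Finset.sum_congr rfl fun k _ => by rw [mul_comm]

theorem ev_c (f g : (Matrix (Fin n) (Fin n) R)ˣ) : P.ev (D.c f g) =
    ∑ p, ∑ q, trace (P.ra p f * ad (P.vg f) (P.ra q g)) • (P.e p * P.e q) := by
  have h : ∀ p, ad (P.vg f)⁻¹ (P.ra p f) = -P.ra p f⁻¹ := fun p => by rw [ra_inv, neg_neg]
  simp only [← tr_ad_ad (P.vg f)⁻¹ (P.ra _ f), ad_inv_ad, h]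
  rw [Dv.c, ← neg_neg (D.L f), ← D.R_inv]
  simp only [Matrix.neg_mul, trace_neg, map_neg, neg_smul, Finset.sum_neg_distrib, neg_inj]
  simp only [trace, diag, mul_apply, map_sum, map_mul, ev_R, Finset.sum_mul_sum, smul_mul_smul_comm,
    Finset.sum_smul]
  simp only [← Finset.sum_product']
  exact Finset.sum_equiv ⟨fun p => (p.2.2.1, p.2.2.2, p.1, p.2.1),
    fun p => (p.2.2.1, p.2.2.2, p.1, p.2.1), fun _ => rfl, fun _ => rfl⟩ (by simp) (by simp)

theorem sum_anti (c : I → I → ℂ) : ∑ p, ∑ q, (c p q - c q p) • (P.e p * P.e q) =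
    2 • ∑ p, ∑ q, c p q • (P.e p * P.e q) := by
  simp only [sub_smul, Finset.sum_sub_distrib, two_smul]
  rw [sub_eq_add_neg, add_right_inj, Finset.sum_comm]
  simp only [← Finset.sum_neg_distrib, ← smul_neg, ← P.anti]

/-- jets of elements of the central extension -/
noncomputable def Jt (n : ℕ) : Subgroup (Gh D (Fin n) × (I × I → HG n)) where
  carrier := {F | (∀ p, (F.2 p).g = P.vg F.1.g ∧ (F.2 p).a = P.ra p.1 F.1.g ∧
    (F.2 p).b = P.ra p.2 F.1.g) ∧ 2 • P.ev F.1.a = ∑ p, ∑ q, (F.2 (p, q)).z • (P.e p * P.e q)}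
  one_mem' := ⟨fun p => ⟨(map_one _).symm, (P.ra_one _).symm, (P.ra_one _).symm⟩, by simp⟩
  mul_mem' := by
    rintro ⟨F, H⟩ ⟨G, K⟩ ⟨a1, a2⟩ ⟨b1, b2⟩
    dsimp only at *
    refine ⟨fun p => ?_, ?_⟩
    · simp [a1, b1, ra_mul]
    · simp only [Prod.fst_mul, Prod.snd_mul, Pi.mul_apply, Gh.mul_a, mul_z, map_add, smul_add, a2,
        b2, add_smul, Finset.sum_add_distrib, a1, b1, ev_c]
      rw [← sum_anti]
  inv_mem' := by
    rintro ⟨F, H⟩ ⟨a1, a2⟩
    dsimp only at *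
    refine ⟨fun p => ?_, ?_⟩
    · simp [a1, ra_inv]
    · simp [a2]

theorem ev_cw {g : ℕ} (X : Fin g → Bool → (Matrix (Fin n) (Fin n) R)ˣ) {x : Ix n g → ℂ}
    {U : I → Ix n g → ℂ} (hx : ∀ k e, P275BC.mt x k e = (X k e).1.map P.pt)
    (hU : ∀ p k e, P275BC.mt (U p) k e = (X k e).1.map (P.dr p)) :
    2 • P.ev (cw fun k e => D.σ (X k e)).a = ∑ p, ∑ q, om x (U p) (U q) • (P.e p * P.e q) := by
  have h0 : ∀ k e, un (P275BC.mt x k e) = P.vg (X k e) := fun k e => Units.ext (by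
    rw [un_val (by rw [hx, ← vg_val]; exact (P.vg _).det_ne_zero), hx, vg_val])
  have h1 : ∀ p k e, P275BC.mt (U p) k e * (P275BC.mt x k e)⁻¹ = P.ra p (X k e) := fun p k e => by
    rw [ra, hU, coe_units_inv, vg_val, hx]
  have h : cw (fun k e => (D.σ (X k e), fun p : I × I => gn x (U p.1) (U p.2) k e)) ∈ P.Jt n :=
    cw_mem fun k e => ⟨fun p => ⟨h0 k e, h1 _ k e, h1 _ k e⟩, by simp [gn]⟩
  have e1 := map_cw (MonoidHom.fst _ _)
    fun k e => (D.σ (X k e), fun p : I × I => gn x (U p.1) (U p.2) k e)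
  have e2 := fun p => map_cw ((Pi.evalMonoidHom _ p).comp (MonoidHom.snd _ _))
    fun k e => (D.σ (X k e), fun p : I × I => gn x (U p.1) (U p.2) k e)
  simp only [MonoidHom.comp_apply, MonoidHom.coe_fst, MonoidHom.coe_snd,
    Pi.evalMonoidHom_apply] at e1 e2
  have h2 := h.2
  simp only [e1, e2] at h2
  exact h2

/-- the three-form vanishes on upper triangular matrices -/
theorem ev_η (f : (Matrix (Fin n) (Fin n) R)ˣ) (h : ∀ p a c, c < a → P.ra p f a c = 0) :
    P.ev (D.η f) = 0 := by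
  have h0 : ∀ a c, c < a → P.ev (D.Rr f a c) = 0 := fun a c e => by simp [ev_R, h _ a c e]
  rw [Dv.η_R]
  simp only [trace, diag, mul_apply, Finset.sum_mul, map_sum]
  refine Finset.sum_eq_zero fun a _ => Finset.sum_eq_zero fun k _ => Finset.sum_eq_zero
    fun i _ => ?_
  rcases lt_or_ge i a with e1 | e1
  · rw [map_mul, map_mul, h0 a i e1, zero_mul, zero_mul]
  rcases lt_or_ge k i with e2 | e2
  · rw [map_mul, map_mul, h0 i k e2, mul_zero, zero_mul]
  rcases lt_or_ge a k with e3 | e3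
  · rw [map_mul, h0 k a e3, mul_zero]
  obtain rfl := le_antisymm e1 (e2.trans e3)
  obtain rfl := le_antisymm e2 e3
  rw [D.od_sq (D.om_R f _ _), zero_mul, map_zero]

end Pt

end Vale.Agent.P275OM
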