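import Vale.Agent.P275KU.Fn
import Vale.Agent.P275CW.Alg
import Vale.Agent.P275OM.Cl

/-!
# P275 (helper20): the ring of smooth forms on a complex manifold.
-/

set_option linter.all false

open scoped Manifold ContDiff Topology Matrix
open Filter Set
open Vale.Agent.P272.K Vale.Agent.P299.IX Vale.Agent.P299.IX.Fock
  Vale.Agent.P281Z.Hg Vale.Agent.P281Z.Hg.G1H Vale.Agent.P281Z.Hg.G2H Vale.Agent.P281Z.Hg.Pb1H
  Vale.Agent.P275MC Vale.Agent.P275KU

noncomputable section

namespace Vale.Agent.P275OM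

/-- forms with the exterior product -/
def Fr (d : ℕ) (M : Type) [TopologicalSpace M] [ChartedSpace (Cm d) M] : Type := SF d M

variable {d : ℕ} {M : Type} [TopologicalSpace M] [ChartedSpace (Cm d) M]

namespace Fr

instance : AddCommGroup (Fr d M) := inferInstanceAs (AddCommGroup (SF d M))

instance : Module ℂ (Fr d M) := inferInstanceAs (Module ℂ (SF d M))

/-- a form as an element of the ring -/
def of : SF d M ≃ₗ[ℂ] Fr d M := LinearEquiv.refl ℂ _

/-- the form of an element of the ring -/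
def sf : Fr d M ≃ₗ[ℂ] SF d M := LinearEquiv.refl ℂ _

@[simp] theorem sf_of (u : SF d M) : sf (of u) = u := rfl

@[simp] theorem of_sf (u : Fr d M) : of (sf u) = u := rfl

instance : Ring (Fr d M) where
  __ := (inferInstance : AddCommGroup (Fr d M))
  mul u v := of (wd (sf u) (sf v))
  one := of (one d M)
  left_distrib u v w := (wd (sf u)).map_add _ _
  right_distrib u v w := wd_add _ _ _
  zero_mul u := wd_zero _
  mul_zero u := (wd (sf u)).map_zero
  mul_assoc u v w := wd_wd _ _ _
  one_mul u := one_wd _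
  mul_one u := wd_one _

instance : Algebra ℂ (Fr d M) := Algebra.ofModule (fun c u v => wd_smul c _ _)
  fun c u v => (wd (sf u)).map_smul c _

theorem sf_mul (u v : Fr d M) : sf (u * v) = wd (sf u) (sf v) := rfl

theorem sf_one : sf (1 : Fr d M) = one d M := rfl

theorem of_wd (u v : SF d M) : of (wd u v) = of u * of v := rfl

theorem of_one : of (one d M) = 1 := rfl

end Fr

open Fr

variable (d M) in
/-- the ring of smooth functions -/
def Sm : Subring (M → ℂ) where
  carrier := {f | SmC d f}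
  mul_mem' := SmC.mul
  one_mem' := SmC.const 1
  add_mem' := SmC.add
  zero_mem' := SmC.const 0
  neg_mem' := SmC.neg

/-- functions as forms -/
def fnH : Sm d M →+* Fr d M where
  toFun f := of (fn f.2)
  map_one' := (fn_const 1).trans (one_smul _ _)
  map_mul' f g := fn_mul f.2 g.2
  map_zero' := (fn_const 0).trans (zero_smul _ _)
  map_add' f g := fn_add f.2 g.2

theorem sf_fnH (f : Sm d M) : sf (fnH f) = fn f.2 := rfl

/-- the value at a point -/
def evH {e : Chart d M} {x : M} (h : At e x) : Fr d M →ₐ[ℂ] Fm d :=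
  AlgHom.ofLinearMap
    { toFun := fun u => wg (vl (sf u) e (e x))
      map_add' := fun u v => f1a.wg_add _ _
      map_smul' := fun c u => f1a.wg_smul _ _ }
    (by change wg (vl (one d M) e (e x)) = 1; rw [one_vl e x h, f1a.wg_ev])
    fun u v => by
      change wg (vl (wd (sf u) (sf v)) e (e x)) = _
      rw [wd_vl _ _ h, wg_wg]; rfl

theorem evH_apply {e : Chart d M} {x : M} (h : At e x) (u : Fr d M) :
    evH h u = wg (vl (sf u) e (e x)) := rfl

theorem evH_one {e : Chart d M} {x : M} (h : At e x) (u : Fr d M) :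
    evH h u *ᵥ ev ∅ = vl (sf u) e (e x) := f1a.wg_one _

variable [IsManifold 𝓘(ℂ, Cm d) ω M]

/-- the exterior derivative -/
def dF : Fr d M →ₗ[ℂ] Fr d M := dd d M

theorem sf_dF (u : Fr d M) : sf (dF u) = dd d M (sf u) := rfl

theorem neg_smul' {E : Type*} [AddCommGroup E] [Module ℂ E] (i : ℤ) (u : E) :
    (i.negOnePow : ℂ) • u = i.negOnePow • u := by
  rw [Units.smul_def, ← Int.cast_smul_eq_zsmul ℂ]

variable (d M) in
/-- forms are a graded commutative differential algebra -/
def dgF : P275CW.DG (Fr d M) where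
  G := Dg d M
  d := dF
  one := one_Dg
  mul := wd_Dg
  dG := dd_Dg
  dd := dd_dd
  lb {i a} b h := by
    have := dd_wd (sf a) (sf b)
    rw [pr_Dg (u := sf a) h, wd_smul, neg_smul'] at this
    exact this
  cm {i j a b} h h' := (wd_comm h h').trans (neg_smul' _ _)

variable (d M) in
/-- the differential of functions -/
def dvF : Dv (Sm d M) (Fr d M) where
  φ := fnH
  d := dF.toAddMonoidHom.comp fnH.toAddMonoidHom
  cm a x := (wd_fn' a.2 (sf x)).symm
  lb a b := dd_fn_mul a.2 b.2
  anti a b := by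
    have := wd_anti (dd_fn_Dg a.2) (dd_fn_Dg b.2) (one d M)
    rwa [wd_one, wd_one] at this
  two x h := by rwa [← two_smul ℂ, smul_eq_zero_iff_right two_ne_zero] at h

theorem sf_d (f : Sm d M) : sf ((dvF d M).d f) = dd d M (fn f.2) := rfl

variable (d M) in
/-- the differential of forms -/
def dwF : Dw (dvF d M) where
  δ := dF.toAddMonoidHom
  one := dd_one
  fn a x := dd_fn_wd a.2 (sf x)
  df a x := (dd_wd (dd d M (fn a.2)) (sf x)).trans (by
    rw [dd_dd, wd_zero, zero_add, pr_odd (dd_fn_Dg a.2) odd_one, wd_neg]; rfl)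

theorem od_Dg {u : Fr d M} (h : u ∈ (dvF d M).Od) : sf u ∈ Dg d M 1 := by
  induction h using AddSubgroup.closure_induction with
  | mem x h => obtain ⟨a, b, rfl⟩ := h; exact fn_wd_Dg a.2 (dd_fn_Dg b.2)
  | zero => exact zero_mem _
  | add x y _ _ hx hy => exact add_mem hx hy
  | neg x _ hx => exact neg_mem hx

theorem dr_add {f g : Cm d → ℂ} {z : Cm d} (c : Fin (d + d)) (hf : DifferentiableAt ℝ f z)
    (hg : DifferentiableAt ℝ g z) : dr c (fun y => f y + g y) z = dr c f z + dr c g z := by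
  obtain ⟨a, b, v, w, h, -⟩ := Po1.rep c
  simp only [h, fderiv_fun_add hf hg, ContinuousLinearMap.add_apply]
  ring

theorem dr_mul {f g : Cm d → ℂ} {z : Cm d} (c : Fin (d + d)) (hf : DifferentiableAt ℝ f z)
    (hg : DifferentiableAt ℝ g z) :
    dr c (fun y => f y * g y) z = f z * dr c g z + g z * dr c f z := by
  obtain ⟨a, b, v, w, h, -⟩ := Po1.rep c
  simp only [h, fderiv_fun_mul hf hg, ContinuousLinearMap.add_apply, ContinuousLinearMap.smul_apply,
    smul_eq_mul]
  ring

theorem dr_congr {f g : Cm d → ℂ} {z : Cm d} (c : Fin (d + d)) (h : f =ᶠ[𝓝 z] g) :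
    dr c f z = dr c g z := by
  obtain ⟨a, b, v, w, h1, -⟩ := Po1.rep c
  rw [h1, h1, h.fderiv_eq]

theorem dr_const (c : Fin (d + d)) (a : ℂ) (z : Cm d) : dr c (fun _ => a) z = 0 := by
  obtain ⟨a, b, v, w, h1, -⟩ := Po1.rep c
  simp [h1]

theorem wg_epsV {n : ℕ} (v : Fin n → ℂ) : wg (epsV v *ᵥ ev ∅) = epsV v := by
  classical
  have h : ∀ s : Finset (Fin n), wg ((∑ l ∈ s, v l • eps l) *ᵥ ev ∅) = ∑ l ∈ s, v l • eps l := by
    intro s
    induction s using Finset.induction_on with
    | empty => simpa using f1a.wg_smul 0 (0 : Fk n)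
    | insert a s ha ih =>
      rw [Finset.sum_insert ha, Matrix.add_mulVec, f1a.wg_add, ih, Matrix.smul_mulVec, f1a.wg_smul,
        f1a.wg_eps, f1a.wg_ev, mul_one]
  exact h _

/-- a point in a chart -/
def ptF {e : Chart d M} {x : M} (h : At e x) : Pt (dvF d M) (Fm d) (Fin (d + d)) where
  pt := (Pi.evalRingHom _ x).comp (Sm d M).subtype
  dr c := AddMonoidHom.mk' (fun f => dr c (fun z => f.1 (e.symm z)) (e x))
    fun f g => dr_add c (SmC.dif f.2 h) (SmC.dif g.2 h)
  lb c f g := (dr_mul c (SmC.dif f.2 h) (SmC.dif g.2 h)).trans (by rw [e.left_inv h.2]; rfl)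
  ev := evH h
  e := eps
  anti := eps_eps
  ev_φ a := (congrArg wg (fn_vl a.2 h)).trans (by rw [f1a.wg_smul, f1a.wg_ev]; rfl)
  ev_d a := (congrArg wg (dd_fn_vl a.2 h)).trans (wg_epsV _)

variable {d' : ℕ} {M' : Type} [TopologicalSpace M'] [ChartedSpace (Cm d') M']
  [IsManifold 𝓘(ℂ, Cm d') ω M'] {f : M → M'}

/-- the pull-back -/
def pbH (hf : Smo d d' f) : Fr d' M' →ₐ[ℂ] Fr d M :=
  AlgHom.ofLinearMap (pb hf) (pb_one hf) (pb_wd hf)

theorem sf_pbH (hf : Smo d d' f) (u : Fr d' M') : sf (pbH hf u) = pb hf (sf u) := rfl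

theorem pbH_d (hf : Smo d d' f) (u : Fr d' M') : pbH hf (dF u) = dF (pbH hf u) := pb_dd hf u

/-- the pull-back of functions -/
def pbS (hf : Smo d d' f) : Sm d' M' →+* Sm d M where
  toFun a := ⟨fun x => a.1 (f x), SmC.pull a.2 hf⟩
  map_one' := rfl
  map_mul' _ _ := rfl
  map_zero' := rfl
  map_add' _ _ := rfl

theorem pbH_fn (hf : Smo d d' f) (a : Sm d' M') : pbH hf (fnH a) = fnH (pbS hf a) := pb_fn hf a.2

end Vale.Agent.P275OM
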