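import Vale.Agent.P275OM.Cb

/-!
# P275 (helper20): the adjoint family is smooth.
-/

set_option linter.all false

open scoped Manifold ContDiff Topology
open Filter Set Matrix
open P275CC (adj linv Nc)
open P275CW
open Vale.Agent.P275ST (Rep XB dimR)
open Vale.Agent.P275XB (Mt wd Irr ep ix Ok)
open Vale.Agent.P275Z (wv)
open Vale.Agent.P272.K Vale.Agent.P275KU

noncomputable section

namespace Vale.Agent.P275OM

section sa

variable {d n : ℕ} {M ι W N : Type} [TopologicalSpace M] [ChartedSpace (Cm d) M] {x : M}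

theorem sa_blk {a : M → Matrix W W ℂ} {b : M → Matrix W N ℂ} {c : M → Matrix N W ℂ}
    {e : M → Matrix N N ℂ} (ha : SaM d x a) (hb : SaM d x b) (hc : SaM d x c) (he : SaM d x e) :
    SaM d x fun y => fromBlocks (a y) (b y) (c y) (e y)
  | .inl p, .inl q => ha p q
  | .inl p, .inr q => hb p q
  | .inr p, .inl q => hc p q
  | .inr p, .inr q => he p q

theorem sa_wd {t : M → ι → Mt n} (h : ∀ i, SaM d x fun y => t y i) :
    ∀ l, SaM d x fun y => wd (t y) l
  | [] => SaM.const 1
  | i :: l => by simpa only [P275XB.wd_cons] using (h i).mul (sa_wd h l)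

theorem sa_tau [Fintype ι] {t : M → ι → Mt n} (h : ∀ i, SaM d x fun y => t y i) :
    SaM d x fun y => tau (t y) := fun _ _ => sa_wd h _ _ _

variable [IsManifold 𝓘(ℂ, Cm d) ω M] [Nc M]

theorem sa_linv [Fintype W] [DecidableEq W] [Fintype N] [DecidableEq N] {a : M → Matrix W N ℂ} (h : SaM d x a)
    (hi : Function.Injective (a x).mulVec) : SaM d x fun y => linv (a y) :=
  have k : SaM d x fun y => (a y)ᴴ := fun p q => (h q p).conj
  ((k.mul h).inv (P275CC.det_gram hi)).mul k

theorem sa_adj [Fintype N] [DecidableEq N] {m : M → Matrix N N ℂ} (h : SaM d x m)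
    (h0 : (m x).det ≠ 0) : SaM d x fun y => adj (m y) := fun _ _ => (h _ _).mul (h.inv h0 _ _)

theorem sa_hh [Fintype ι] {t : M → ι → Mt n} (h : ∀ i, SaM d x fun y => t y i) (hi : Irr (t x)) :
    SaM d x fun y => hh (t y) :=
  have a := sa_tau h
  have b := sa_linv a (tau_inj hi)
  sa_blk ((SaM.const 1).sub (a.mul b)) a b (SaM.const 0)

theorem sa_big [Fintype ι] {t : M → ι → Mt n} (h : ∀ i, SaM d x fun y => t y i) (hi : Irr (t x))
    {m : M → Mt n} (hm : SaM d x m) (h0 : (m x).det ≠ 0) : SaM d x fun y => big (t y) (m y) :=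
  ((sa_hh h hi).mul (sa_blk (SaM.const 1) (SaM.const 0) (SaM.const 0) (sa_adj hm h0))).mul
    (sa_hh h hi)

omit [Nc M] in
theorem sa_an [T2Space M] {s : M → ι → ℂ} [Fintype ι] (h : P281Z.AnV d s x) (i : ι) :
    Sa d x fun y => s y i :=
  sa_of ((h.hol i).near.mono fun y hy e he => ((hy e he).contDiffAt (n := ∞)).restrict_scalars ℝ)

end sa

variable {g n : ℕ} {d : ℤ} [Ok g n d]

instance nc_XB : Nc (XB g n d) := nc_mf (2 * dimR g n) _

/-- smooth local lifts -/
theorem ex_lift (x : XB g n d) : ∃ ρ : XB g n d → Rep g n d, (∀ᶠ y in 𝓝 x, (ρ y).pt = y) ∧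
    P281Z.AnV (2 * dimR g n) (fun y => ix (ep (ρ y))) x ∧
    ∀ s, SaM (2 * dimR g n) x fun y => ep (ρ y) s := by
  obtain ⟨ρ, rfl⟩ : ∃ ρ : Rep g n d, ρ.pt = x := Quot.exists_rep x
  obtain ⟨s, -, h2, h3⟩ := (P275XB.sbm_pt ρ).sec (P275XB.hol_pt.at ρ)
  have h : P281Z.AnV (2 * dimR g n) (fun y => ix (ep (s y))) ρ.pt :=
    P281Z.AnV.pi fun i => h2.hol ((P275XB.reg_ep (i.1, i.2.1) _ _).hol _)
  exact ⟨s, h3, h, fun t a b => sa_an h (t.1, t.2, a, b)⟩

theorem sa_bg (x : XB g n d) (w : Gm g) : SaM (2 * dimR g n) x fun y : XB g n d => bg y w := by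
  induction w using FreeGroup.induction_on with
  | C1 => simpa only [map_one] using SaM.const 1
  | of s =>
    obtain ⟨ρ, h1, -, h2⟩ := ex_lift x
    exact (sa_big h2 (P275XB.irr_ep _) (h2 s) (by simp [ep])).congr (h1.mono fun y e =>
      (congrArg (big _) (P275RL.wv_of _ s).symm).trans (congrArg (bg · (FreeGroup.of s)) e))
  | inv_of s ih =>
    have e : ∀ y : XB g n d, bg y (.of s) * bg y (FreeGroup.of s)⁻¹ = 1 := fun y => by
      rw [← map_mul, mul_inv_cancel, map_one]
    exact (ih.inv (isUnit_det_of_right_inverse (e x)).ne_zero).congr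
      (.of_forall fun y => inv_eq_right_inv (e y))
  | mul a b ha hb => simpa only [map_mul] using ha.mul hb

theorem smC_bg (w : Gm g) (a b : Jx (Fin g × Bool) n) :
    SmC (2 * dimR g n) fun y : XB g n d => bg y w a b := Sa.smC fun x => sa_bg x w a b

variable (g n d) in
/-- the adjoint family as a representation over the ring of smooth functions -/
def bgS : Gm g →* (Matrix (Jx (Fin g × Bool) n) (Jx (Fin g × Bool) n)
    (Sm (2 * dimR g n) (XB g n d)))ˣ :=
  MonoidHom.toHomUnits
    { toFun := fun w => of fun a b => ⟨fun x => bg x w a b, smC_bg w a b⟩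
      map_one' := Matrix.ext fun a b => Subtype.ext (funext fun x => by
        change bg x 1 a b = Sm.ev (d := 2 * dimR g n) x _
        rw [map_one, ← map_apply (f := Sm.ev x), Matrix.map_one _ (map_zero _) (map_one _)])
      map_mul' := fun u v => Matrix.ext fun a b => Subtype.ext (funext fun x => by
        change bg x (u * v) a b = Sm.ev (d := 2 * dimR g n) x _
        rw [map_mul, ← map_apply (f := Sm.ev x), Matrix.map_mul]
        rfl) }

theorem bgS_val (w : Gm g) (a b : Jx (Fin g × Bool) n) :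
    ((bgS g n d w).1 a b).1 = fun x => bg x w a b := rfl

theorem bgS_ev (w : Gm g) (x : XB g n d) : (bgS g n d w).1.map (Sm.ev x) = bg x w := rfl

theorem bgS_cwd : bgS g n d (P275RH.cwd g) = 1 :=
  Units.ext (Matrix.ext fun a b => Subtype.ext (funext fun x => by
    change bg x _ a b = Sm.ev (d := 2 * dimR g n) x _
    rw [bg_cwd, ← map_apply (f := Sm.ev x), Units.val_one,
      Matrix.map_one _ (map_zero _) (map_one _)]))

theorem ex_r : ∃ r : Gm g →* (Matrix (Jx (Fin g × Bool) n) (Jx (Fin g × Bool) n)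
    (Sm (2 * dimR g n) (XB g n d)))ˣ, ∀ w a b, ((r w).1 a b).1 = fun x => bg x w a b :=
  ⟨_, bgS_val⟩

end Vale.Agent.P275OM
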