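import Vale.Agent.P275BC.Props

/-!
# P275 (helper20): the product of commutators in a group; the form `om` is bilinear, and its value
on a vector supported on one generator.
-/

set_option linter.all false

open Matrix

namespace Vale.Agent.P275OM

open P275BC P275BC.HG

section cw

variable {Γ Γ' : Type*} [Group Γ] [Group Γ'] {g : ℕ}

/-- one handle -/
def hd (X : Fin g → Bool → Γ) (k : Fin g) : Γ :=
  X k false * X k true * (X k false)⁻¹ * (X k true)⁻¹

/-- the product of the commutators -/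
def cw (X : Fin g → Bool → Γ) : Γ := (List.ofFn (hd X)).prod

/-- the product of the first handles -/
def pre (X : Fin g → Bool → Γ) (k : Fin g) : Γ := ((List.ofFn (hd X)).take k).prod

/-- the product of the last handles -/
def suf (X : Fin g → Bool → Γ) (k : Fin g) : Γ := ((List.ofFn (hd X)).drop (k + 1)).prod

theorem map_hd (φ : Γ →* Γ') (X : Fin g → Bool → Γ) :
    φ ∘ hd X = hd fun k e => φ (X k e) := funext fun k => by simp [hd]

theorem map_cw (φ : Γ →* Γ') (X : Fin g → Bool → Γ) : φ (cw X) = cw fun k e => φ (X k e) := by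
  rw [cw, map_list_prod, List.map_ofFn, map_hd, cw]

theorem map_pre (φ : Γ →* Γ') (X : Fin g → Bool → Γ) (k : Fin g) :
    φ (pre X k) = pre (fun k e => φ (X k e)) k := by
  rw [pre, map_list_prod, List.map_take, List.map_ofFn, map_hd, pre]

theorem cw_eq (X : Fin g → Bool → Γ) (k : Fin g) : cw X = pre X k * hd X k * suf X k := by
  have h : (k : ℕ) < (List.ofFn (hd X)).length := by simp
  rw [cw, ← List.prod_take_mul_prod_drop _ (k + 1), List.prod_take_succ _ _ h, List.getElem_ofFn]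
  rfl

theorem hd_mem {S : Subgroup Γ} {X : Fin g → Bool → Γ} {k : Fin g} (h : ∀ e, X k e ∈ S) :
    hd X k ∈ S := mul_mem (mul_mem (mul_mem (h _) (h _)) (inv_mem (h _))) (inv_mem (h _))

theorem cw_mem {S : Subgroup Γ} {X : Fin g → Bool → Γ} (h : ∀ k e, X k e ∈ S) : cw X ∈ S :=
  S.list_prod_mem fun x hx => by
    obtain ⟨k, rfl⟩ := List.mem_ofFn.1 hx
    exact hd_mem (h k)

theorem pre_mem {S : Subgroup Γ} {X : Fin g → Bool → Γ} {k : Fin g}
    (h : ∀ j, j < k → hd X j ∈ S) : pre X k ∈ S :=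
  S.list_prod_mem fun x hx => by
    obtain ⟨j, hj, rfl⟩ := List.mem_take_iff_getElem.1 hx
    rw [List.getElem_ofFn]
    exact h _ (show j < (k : ℕ) from lt_of_lt_of_le hj (min_le_left _ _))

theorem suf_mem {S : Subgroup Γ} {X : Fin g → Bool → Γ} {k : Fin g}
    (h : ∀ j, k < j → hd X j ∈ S) : suf X k ∈ S :=
  S.list_prod_mem fun x hx => by
    obtain ⟨j, hj, rfl⟩ := List.mem_drop_iff_getElem.1 hx
    rw [List.getElem_ofFn]
    exact h _ (by change (k : ℕ) < k + 1 + j; omega)

theorem cw_comm {Γ : Type*} [CommGroup Γ] (X : Fin g → Bool → Γ) : cw X = 1 :=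
  Subgroup.mem_bot.1 <| Subgroup.list_prod_mem ⊥ fun x hx => by
    obtain ⟨k, rfl⟩ := List.mem_ofFn.1 hx
    rw [Subgroup.mem_bot, hd, mul_right_comm (X k false), mul_inv_cancel, one_mul, mul_inv_cancel]

/-- the partial product in front of a generator -/
def fr (X : Fin g → Bool → Γ) (k : Fin g) : Bool → Γ
  | false => pre X k
  | true => pre X k * X k false

/-- the partial product which ends with the inverse of a generator -/
def bk (X : Fin g → Bool → Γ) (k : Fin g) : Bool → Γ
  | false => pre X k * X k false * X k true * (X k false)⁻¹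
  | true => pre X k * hd X k

/-- the element which glues the two edges labelled by a generator -/
def dk (X : Fin g → Bool → Γ) (k : Fin g) (e : Bool) : Γ := bk X k e * (fr X k e)⁻¹

theorem map_fr (φ : Γ →* Γ') (X : Fin g → Bool → Γ) (k : Fin g) (e : Bool) :
    φ (fr X k e) = fr (fun k e => φ (X k e)) k e := by cases e <;> simp [fr, map_pre]

theorem map_dk (φ : Γ →* Γ') (X : Fin g → Bool → Γ) (k : Fin g) (e : Bool) :
    φ (dk X k e) = dk (fun k e => φ (X k e)) k e := by
  cases e <;> simp [dk, bk, fr, hd, map_pre]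

theorem dk_mem {S : Subgroup Γ} {X : Fin g → Bool → Γ} (h : ∀ k e, X k e ∈ S) (k : Fin g)
    (e : Bool) : dk X k e ∈ S := by
  have hp : pre X k ∈ S := pre_mem fun j _ => hd_mem (h j)
  cases e
  · exact mul_mem (mul_mem (mul_mem (mul_mem hp (h _ _)) (h _ _)) (inv_mem (h _ _))) (inv_mem hp)
  · exact mul_mem (mul_mem hp (hd_mem (h k))) (inv_mem (mul_mem hp (h _ _)))

/-- the gluing elements generate -/
theorem mem_of_dk {S : Subgroup Γ} {X : Fin g → Bool → Γ} (h : ∀ k e, dk X k e ∈ S) (k : Fin g) :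
    ∀ e, X k e ∈ S := by
  induction k using WellFoundedLT.induction with
  | ind k ih =>
    have hp : pre X k ∈ S := pre_mem fun j hj => hd_mem (ih j hj)
    have h1 : X k false = (pre X k)⁻¹ * (dk X k false)⁻¹ * (dk X k true)⁻¹ * dk X k false *
        pre X k := by simp only [dk, bk, fr, hd]; group
    have h2 : X k false ∈ S := h1 ▸ mul_mem (mul_mem (mul_mem (mul_mem (inv_mem hp)
      (inv_mem (h _ _))) (inv_mem (h _ _))) (h _ _)) hp
    have h3 : X k true = (X k false)⁻¹ * (pre X k)⁻¹ * dk X k false * pre X k * X k false := by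
      simp only [dk, bk, fr]; group
    intro e
    cases e
    · exact h2
    · exact h3 ▸ mul_mem (mul_mem (mul_mem (mul_mem (inv_mem h2) (inv_mem hp)) (h _ _)) hp) h2

/-- variation of one generator -/
theorem cw_var {X Y : Fin g → Bool → Γ} {k : Fin g} {e : Bool} {ν : Γ}
    (h0 : ∀ j, j ≠ k → hd Y j = hd X j)
    (h1 : Y k (!e) = X k (!e)) (h2 : Y k e = ν * X k e) :
    cw Y = fr X k e * ν * (fr X k e)⁻¹ * (bk X k e * ν⁻¹ * (bk X k e)⁻¹) * cw X := by
  have p : pre Y k = pre X k := by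
    unfold pre
    congr 1
    refine List.ext_getElem (by simp) fun j h1 h2 => ?_
    rw [List.getElem_take, List.getElem_take, List.getElem_ofFn, List.getElem_ofFn]
    refine h0 _ fun e => ?_
    rw [List.length_take] at h1
    exact absurd (congrArg Fin.val e) (lt_of_lt_of_le h1 (min_le_left _ _)).ne
  have s : suf Y k = suf X k := by
    unfold suf
    congr 1
    refine List.ext_getElem (by simp) fun j h1 h2 => ?_
    rw [List.getElem_drop, List.getElem_drop, List.getElem_ofFn, List.getElem_ofFn]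
    refine h0 _ fun e => ?_
    have : (k : ℕ) + 1 + j = k := congrArg Fin.val e
    omega
  rw [cw_eq Y k, cw_eq X k, p, s]
  cases e
  · simp only [Bool.not_false] at h1
    simp only [hd, fr, bk, h1, h2]
    group
  · simp only [Bool.not_true] at h1
    simp only [hd, fr, bk, h1, h2]
    group

end cw

variable {n g : ℕ}

/-- complex matrices -/
abbrev Mx (n : ℕ) : Type := Matrix (Fin n) (Fin n) ℂ

theorem ad_sub (h : GL (Fin n) ℂ) (M N : Mx n) : ad h (M - N) = ad h M - ad h N := by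
  rw [sub_eq_add_neg, ad_add, ad_neg, sub_eq_add_neg]

theorem ad_smul (h : GL (Fin n) ℂ) (c : ℂ) (M : Mx n) : ad h (c • M) = c • ad h M := by
  simp only [ad, Matrix.mul_smul, Matrix.smul_mul]

theorem ad_inv_ad (h : GL (Fin n) ℂ) (M : Mx n) : ad h⁻¹ (ad h M) = M := by
  rw [← ad_mul, inv_mul_cancel, ad_one]

theorem ad_ad_inv (h : GL (Fin n) ℂ) (M : Mx n) : ad h (ad h⁻¹ M) = M := by
  rw [← ad_mul, mul_inv_cancel, ad_one]

/-- the projection on the group -/
noncomputable def pg : HG n →* GL (Fin n) ℂ where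
  toFun := HG.g
  map_one' := rfl
  map_mul' _ _ := rfl

/-- forget the second direction -/
noncomputable def pa : HG n →* HG n where
  toFun F := ⟨F.g, F.a, 0, 0⟩
  map_one' := rfl
  map_mul' F G := by ext1 <;> simp [ad_zero]

/-- exchange the two directions -/
noncomputable def sw : HG n →* HG n where
  toFun F := ⟨F.g, F.b, F.a, -F.z⟩
  map_one' := by ext1 <;> simp
  map_mul' F G := by
    ext1
    · rfl
    · rfl
    · rfl
    · simp only [mul_z]; ring

/-- linearity in the second direction -/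
noncomputable def Lin (c : ℂ) : Subgroup (HG n × HG n × HG n) where
  carrier := {p | p.2.1.g = p.1.g ∧ p.2.2.g = p.1.g ∧ p.2.1.a = p.1.a ∧ p.2.2.a = p.1.a ∧
    p.2.2.b = c • p.1.b + p.2.1.b ∧ p.2.2.z = c * p.1.z + p.2.1.z}
  one_mem' := by simp
  mul_mem' := by
    rintro ⟨x, y, z⟩ ⟨x', y', z'⟩ ⟨a1, a2, a3, a4, a5, a6⟩ ⟨b1, b2, b3, b4, b5, b6⟩
    dsimp only at *
    refine ⟨?_, ?_, ?_, ?_, ?_, ?_⟩
    · simp [a1, b1]
    · simp [a2, b2]
    · simp [a1, a3, b3]
    · simp [a2, a4, b4]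
    · simp only [Prod.fst_mul, Prod.snd_mul, mul_b, a1, a2, a5, b5, ad_add, ad_smul, smul_add]
      abel
    · simp only [Prod.fst_mul, Prod.snd_mul, mul_z, a1, a2, a3, a4, a5, a6, b3, b4, b5, b6, ad_add,
        ad_smul, Matrix.mul_add, Matrix.add_mul, Matrix.mul_smul, Matrix.smul_mul, trace_add,
        trace_smul, smul_eq_mul]
      ring
  inv_mem' := by
    rintro ⟨x, y, z⟩ ⟨a1, a2, a3, a4, a5, a6⟩
    dsimp only at *
    refine ⟨?_, ?_, ?_, ?_, ?_, ?_⟩
    · simp [a1]
    · simp [a2]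
    · simp [a1, a3]
    · simp [a2, a4]
    · simp only [Prod.fst_inv, Prod.snd_inv, inv_b, a1, a2, a5, ad_add, ad_smul, smul_neg, neg_add]
    · simp only [Prod.fst_inv, Prod.snd_inv, inv_z, a6]; ring

/-- the lifts of the generators -/
noncomputable def gn (x u v : Ix n g → ℂ) (k : Fin g) (e : Bool) : HG n :=
  ⟨un (mt x k e), mt u k e * (mt x k e)⁻¹, mt v k e * (mt x k e)⁻¹, 0⟩

theorem muJ_eq (x u v : Ix n g → ℂ) : (muJ fun i => jt (x i) (u i) (v i)) = cw (gn x u v) := rfl

theorem om_eq (x u v : Ix n g → ℂ) : om x u v = (cw (gn x u v)).z := rfl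

theorem sw_cw (x u v : Ix n g → ℂ) : sw (cw (gn x u v)) = cw (gn x v u) := by
  rw [map_cw]
  exact congrArg cw (funext₂ fun k e => HG.ext rfl rfl rfl neg_zero)

theorem mt_zero (k : Fin g) (e : Bool) : mt (0 : Ix n g → ℂ) k e = 0 := rfl

theorem pa_gn (x u v : Ix n g → ℂ) : (fun k e => pa (gn x u v k e)) = gn x u 0 :=
  funext₂ fun k e => HG.ext rfl rfl (by change 0 = mt 0 k e * _; rw [mt_zero, zero_mul]) rfl

theorem om_swap (x u v : Ix n g → ℂ) : om x v u = -om x u v := by
  rw [om_eq, ← sw_cw]; rfl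

/-- the right logarithmic derivative of `mu` -/
noncomputable def dmu (x u : Ix n g → ℂ) : Mx n := (cw (gn x u 0)).a

theorem cw_a (x u v : Ix n g → ℂ) : (cw (gn x u v)).a = dmu x u := by
  rw [dmu, ← pa_gn x u v, ← map_cw]; rfl

theorem cw_b (x u v : Ix n g → ℂ) : (cw (gn x u v)).b = dmu x v := by
  rw [← cw_a x v u, ← sw_cw]; rfl

theorem lin_cw (x u v w : Ix n g → ℂ) (c : ℂ) : dmu x (c • v + w) = c • dmu x v + dmu x w ∧
    om x u (c • v + w) = c * om x u v + om x u w := by
  have h : cw (fun k e => (gn x u v k e, gn x u w k e, gn x u (c • v + w) k e)) ∈ Lin c :=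
    cw_mem fun k e => ⟨rfl, rfl, rfl, rfl, by
      change (c • mt v k e + mt w k e) * _ = c • (mt v k e * _) + mt w k e * _
      rw [Matrix.add_mul, Matrix.smul_mul], by simp [gn]⟩
  obtain ⟨-, -, -, -, h5, h6⟩ := h
  have e1 := map_cw (MonoidHom.fst _ _)
    fun k e => (gn x u v k e, gn x u w k e, gn x u (c • v + w) k e)
  have e2 := map_cw ((MonoidHom.fst _ _).comp (MonoidHom.snd _ _))
    fun k e => (gn x u v k e, gn x u w k e, gn x u (c • v + w) k e)
  have e3 := map_cw ((MonoidHom.snd _ _).comp (MonoidHom.snd _ _))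
    fun k e => (gn x u v k e, gn x u w k e, gn x u (c • v + w) k e)
  simp only [MonoidHom.comp_apply, MonoidHom.coe_fst, MonoidHom.coe_snd] at e1 e2 e3
  rw [e1, e2, e3] at h5 h6
  exact ⟨by rw [← cw_b x u, ← cw_b x u, ← cw_b x u]; exact h5, h6⟩

/-- a map which is compatible with `c • v + w` -/
def mkL {E F : Type*} [AddCommGroup E] [Module ℂ E] [AddCommGroup F] [Module ℂ F] (f : E → F)
    (h : ∀ (c : ℂ) v w, f (c • v + w) = c • f v + f w) : E →ₗ[ℂ] F where
  toFun := f
  map_add' v w := by simpa using h 1 v w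
  map_smul' c v := by
    have h0 : f 0 = 0 := by simpa using h 1 0 0
    simpa [h0] using h c v 0

/-- the differential of `mu` as a linear map -/
noncomputable def dmuL (x : Ix n g → ℂ) : (Ix n g → ℂ) →ₗ[ℂ] Mx n :=
  mkL (dmu x) fun c v w => (lin_cw x 0 v w c).1

/-- the 2-form as a bilinear form -/
noncomputable def omL (x : Ix n g → ℂ) : LinearMap.BilinForm ℂ (Ix n g → ℂ) :=
  mkL (fun u => mkL (om x u) fun c v w => (lin_cw x u v w c).2) fun c v w =>
    LinearMap.ext fun u => by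
      change om x (c • v + w) u = c * om x v u + om x w u
      rw [om_swap, (lin_cw x u v w c).2, om_swap x u v, om_swap x u w]
      ring

theorem omL_apply (x u v : Ix n g → ℂ) : omL x u v = om x u v := rfl

theorem dmuL_apply (x u : Ix n g → ℂ) : dmuL x u = dmu x u := rfl

theorem omL_alt (x : Ix n g → ℂ) : (omL x).IsAlt := fun u => by
  have := om_swap x u u
  rw [omL_apply]
  linear_combination this / 2

/-- a vector supported on one generator -/
def sg (k : Fin g) (e : Bool) (N : Mx n) : Ix n g → ℂ :=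
  fun i => if i.1 = k ∧ i.2.1 = e then N i.2.2.1 i.2.2.2 else 0

theorem mt_sg (k : Fin g) (e : Bool) (N : Mx n) : mt (sg k e N) k e = N := by
  ext a c; exact if_pos ⟨rfl, rfl⟩

theorem mt_sg_ne {k j : Fin g} {e f : Bool} (N : Mx n) (h : ¬(j = k ∧ f = e)) :
    mt (sg k e N) j f = 0 := by
  ext a c; exact if_neg h

theorem ext_sg {F : Type*} [AddCommGroup F] [Module ℂ F] {f f' : (Ix n g → ℂ) →ₗ[ℂ] F}
    (h : ∀ k e N, f (sg k e N) = f' (sg k e N)) : f = f' :=
  (Pi.basisFun ℂ _).ext fun ⟨k, e, a, c⟩ => by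
    have : Pi.basisFun ℂ (Ix n g) (k, e, a, c) = sg k e (Matrix.single a c 1) := by
      ext ⟨k', e', a', c'⟩
      simp only [Pi.basisFun_apply, Pi.single_apply, sg, Matrix.single, of_apply, Prod.mk.injEq]
      by_cases h1 : k' = k <;> by_cases h2 : e' = e <;> simp [h1, h2, @eq_comm _ a, @eq_comm _ c]
    rw [this, h]

/-- elements in the second direction -/
def nb (η : Mx n) (z : ℂ) : HG n := ⟨1, 0, η, z⟩

theorem conj_nb {F : HG n} (hb : F.b = 0) (η : Mx n) (z : ℂ) :
    F * nb η z * F⁻¹ = nb (ad F.g η) (z + 2 * trace (F.a * ad F.g η)) := by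
  rw [mul_inv_eq_iff_eq_mul]
  ext1
  · simp [nb]
  · simp [nb, ad_zero, ad_one]
  · simp [nb, hb, ad_zero]
  · simp only [nb, mul_z, hb, ad_zero, ad_one, Matrix.mul_zero, Matrix.zero_mul, trace_zero]
    rw [trace_mul_comm (ad F.g η)]
    ring

theorem nb_inv (η : Mx n) (z : ℂ) : (nb η z)⁻¹ = nb (-η) (-z) := by
  ext1 <;> simp [nb, ad_one, ad_zero]

theorem b_of_pa {F : HG n} (h : pa F = F) : F.b = 0 := by rw [← h]; rfl

/-- the gluing elements of the point `x` -/
noncomputable def dg (x : Ix n g → ℂ) (k : Fin g) (e : Bool) : GL (Fin n) ℂ :=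
  dk (fun k e => un (mt x k e)) k e

/-- the partial products of the point `x` -/
noncomputable def fg (x : Ix n g → ℂ) (k : Fin g) (e : Bool) : GL (Fin n) ℂ :=
  fr (fun k e => un (mt x k e)) k e

/-- **the form and `d mu` on a vector supported on one generator** -/
theorem om_sg (x u : Ix n g → ℂ) (k : Fin g) (e : Bool) (N : Mx n) {η : Mx n}
    (hη : η = ad (fg x k e) (N * (mt x k e)⁻¹)) :
    dmu x (sg k e N) = η - ad (dg x k e) η ∧ om x u (sg k e N) =
      -trace (ad (dg x k e) η * ((2 : ℂ) • (dk (gn x u 0) k e).a + ad (dg x k e) (dmu x u) - dmu x u)) := by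
  have g0 : ∀ j f, ¬(j = k ∧ f = e) → gn x u (sg k e N) j f = gn x u 0 j f := fun j f h => by
    rw [gn, mt_sg_ne N h]; rfl
  have h := cw_var (X := gn x u 0) (Y := gn x u (sg k e N)) (k := k) (e := e)
    (ν := nb (N * (mt x k e)⁻¹) (trace (N * (mt x k e)⁻¹ * (mt u k e * (mt x k e)⁻¹))))
    (fun j hj => by simp only [hd, g0 j _ fun h => hj h.1]) (g0 _ _ (by cases e <;> simp)) (by
      ext1
      · simp [nb, gn]
      · simp [nb, gn, ad_one]
      · simp [nb, gn, mt_sg, mt_zero, ad_zero]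
      · simp [nb, gn, ad_one])
  have f1 : (fr (gn x u 0) k e).b = 0 := b_of_pa (by rw [map_fr, pa_gn])
  have d1 : (dk (gn x u 0) k e).b = 0 := b_of_pa (by rw [map_dk, pa_gn])
  have c1 : (cw (gn x u 0)).b = 0 := b_of_pa (by rw [map_cw, pa_gn])
  have c2 : (cw (gn x u 0)).z = 0 := by rw [← pa_gn x u 0, ← map_cw]; rfl
  have f2 : (fr (gn x u 0) k e).g = fg x k e := map_fr pg _ k e
  have d2 : (dk (gn x u 0) k e).g = dg x k e := map_dk pg _ k e
  have b1 : bk (gn x u 0) k e = dk (gn x u 0) k e * fr (gn x u 0) k e := by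
    rw [dk, inv_mul_cancel_right]
  have b2 : ∀ ν : HG n, bk (gn x u 0) k e * ν⁻¹ * (bk (gn x u 0) k e)⁻¹ = dk (gn x u 0) k e *
      (fr (gn x u 0) k e * ν * (fr (gn x u 0) k e)⁻¹)⁻¹ * (dk (gn x u 0) k e)⁻¹ := fun ν => by
    rw [b1]; group
  rw [b2, conj_nb f1, nb_inv, conj_nb d1, f2, d2, ← hη] at h
  refine ⟨?_, ?_⟩
  · rw [← cw_b x u, h]
    simp [nb, c1, ad_zero, ad_one, ad_neg, sub_eq_add_neg]
  · rw [om_eq, h]
    simp only [nb, mul_z, mul_a, mul_b, mul_g, c1, c2, cw_a, ad_zero, ad_one, ad_neg, mul_one,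
      Matrix.mul_zero, Matrix.zero_mul, trace_zero, add_zero, Matrix.add_mul, Matrix.mul_add,
      Matrix.mul_sub, Matrix.mul_neg, Matrix.neg_mul, trace_add, trace_sub, trace_neg,
      Matrix.mul_smul, trace_smul, smul_eq_mul, tr_ad_ad]
    rw [trace_mul_comm (dk (gn x u 0) k e).a]
    ring

end Vale.Agent.P275OM
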