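import Mathlib

/-!
# P275, the symplectic form (helper20): the two-cocycle `(f|g) = tr (f⁻¹ df dg g⁻¹)` and the central
extension which it defines.
-/

set_option linter.all false

open Matrix

namespace Vale.Agent.P275OM

/-- a derivation with values in anticommuting elements of a ring -/
structure Dv (R A : Type*) [CommRing R] [Ring A] where
  φ : R →+* A
  d : R →+ A
  cm : ∀ a x, φ a * x = x * φ a
  lb : ∀ a b, d (a * b) = φ a * d b + φ b * d a
  anti : ∀ a b, d a * d b = -(d b * d a)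
  two : ∀ x : A, x + x = 0 → x = 0

variable {R A : Type*} [CommRing R] [Ring A] (D : Dv R A) {n : Type*} [Fintype n] [DecidableEq n]

namespace Dv

theorem d_one : D.d 1 = 0 := by
  have h := D.lb 1 1
  rw [mul_one, D.φ.map_one, one_mul] at h
  exact left_eq_add.1 h

theorem d_inv (a : Rˣ) : D.d (a⁻¹ : Rˣ) = -(D.φ (a⁻¹ : Rˣ) * D.φ (a⁻¹ : Rˣ) * D.d a) := by
  have h := D.lb a (a⁻¹ : Rˣ)
  rw [Units.mul_inv, D.d_one] at h
  have h2 := congrArg (D.φ (a⁻¹ : Rˣ) * ·) h
  simp only [mul_zero, mul_add, ← mul_assoc, ← map_mul, Units.inv_mul, map_one, one_mul] at h2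
  rw [map_mul] at h2
  exact eq_neg_of_add_eq_zero_left h2.symm

/-- the one-forms -/
def Od : AddSubgroup A := AddSubgroup.closure {x | ∃ a b, x = D.φ a * D.d b}

theorem d_mem (b : R) : D.d b ∈ D.Od :=
  AddSubgroup.subset_closure ⟨1, b, by rw [map_one, one_mul]⟩

theorem mul_mem (a : R) {x : A} (hx : x ∈ D.Od) : D.φ a * x ∈ D.Od := by
  induction hx using AddSubgroup.closure_induction with
  | mem x h =>
    obtain ⟨b, c, rfl⟩ := h
    exact AddSubgroup.subset_closure ⟨a * b, c, by rw [map_mul, mul_assoc]⟩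
  | zero => rw [mul_zero]; exact zero_mem _
  | add x y _ _ hx hy => rw [mul_add]; exact add_mem hx hy
  | neg x _ hx => rw [mul_neg]; exact neg_mem hx

theorem od_anti {x y : A} (hx : x ∈ D.Od) (hy : y ∈ D.Od) : x * y = -(y * x) := by
  induction hx, hy using AddSubgroup.closure_induction₂ with
  | mem x y hx hy =>
    obtain ⟨a, b, rfl⟩ := hx
    obtain ⟨c, e, rfl⟩ := hy
    rw [mul_assoc, ← mul_assoc (D.d b), ← D.cm, mul_assoc, D.anti, mul_assoc (D.φ c),
      ← mul_assoc (D.d e), ← D.cm, mul_assoc, mul_neg, mul_neg, ← mul_assoc, ← mul_assoc (D.φ c),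
      D.cm a]
  | zero_left => simp
  | zero_right => simp
  | add_left x y z _ _ _ h1 h2 => rw [add_mul, mul_add, h1, h2, neg_add]
  | add_right x y z _ _ _ h1 h2 => rw [add_mul, mul_add, h1, h2, neg_add]
  | neg_left x y _ _ h => rw [neg_mul, mul_neg, h]
  | neg_right x y _ _ h => rw [neg_mul, mul_neg, h]

theorem od_sq {x : A} (hx : x ∈ D.Od) : x * x = 0 :=
  D.two _ (eq_neg_iff_add_eq_zero.1 (D.od_anti hx hx))

/-- the matrix of functions -/
def m : Matrix n n R →+* Matrix n n A := D.φ.mapMatrix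

/-- the differential of a matrix -/
def dm : Matrix n n R →+ Matrix n n A := D.d.mapMatrix

theorem m_apply (f : Matrix n n R) (i j : n) : D.m f i j = D.φ (f i j) := rfl

theorem dm_apply (f : Matrix n n R) (i j : n) : D.dm f i j = D.d (f i j) := rfl

theorem dm_mul (f g : Matrix n n R) : D.dm (f * g) = D.dm f * D.m g + D.m f * D.dm g := by
  ext i j
  simp only [dm_apply, m_apply, mul_apply, Matrix.add_apply, map_sum, D.lb, ← Finset.sum_add_distrib]
  exact Finset.sum_congr rfl fun k _ => by rw [add_comm, D.cm]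

theorem dm_one : D.dm (1 : Matrix n n R) = 0 := by
  have h := D.dm_mul (1 : Matrix n n R) 1
  rw [mul_one, D.m.map_one, one_mul, mul_one] at h
  exact left_eq_add.1 h

theorem tr_m (f : Matrix n n R) (X : Matrix n n A) : trace (D.m f * X) = trace (X * D.m f) := by
  simp only [trace, diag, mul_apply, m_apply]
  rw [Finset.sum_comm]
  simp only [D.cm]

/-- matrices of one-forms -/
def Om (X : Matrix n n A) : Prop := ∀ i j, X i j ∈ D.Od

variable {D} {X Y Z : Matrix n n A}

theorem om_dm (f : Matrix n n R) : D.Om (D.dm f) := fun _ _ => D.d_mem _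

theorem Om.left (h : D.Om X) (f : Matrix n n R) : D.Om (D.m f * X) := fun i j => by
  rw [mul_apply]
  exact sum_mem fun k _ => D.mul_mem _ (h k j)

theorem Om.right (h : D.Om X) (f : Matrix n n R) : D.Om (X * D.m f) := fun i j => by
  rw [mul_apply]
  exact sum_mem fun k _ => by rw [m_apply, ← D.cm]; exact D.mul_mem _ (h i k)

theorem Om.add (h : D.Om X) (h' : D.Om Y) : D.Om (X + Y) := fun i j => add_mem (h i j) (h' i j)

theorem Om.neg (h : D.Om X) : D.Om (-X) := fun i j => neg_mem (h i j)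

theorem Om.tr_anti (h : D.Om X) (h' : D.Om Y) : trace (X * Y) = -trace (Y * X) := by
  simp only [trace, diag, mul_apply]
  rw [Finset.sum_comm, ← Finset.sum_neg_distrib]
  refine Finset.sum_congr rfl fun i _ => ?_
  rw [← Finset.sum_neg_distrib]
  exact Finset.sum_congr rfl fun j _ => D.od_anti (h j i) (h' i j)

theorem Om.tr_sq (h : D.Om X) : trace (X * X) = 0 :=
  D.two _ (eq_neg_iff_add_eq_zero.1 (h.tr_anti h))

theorem Om.tr_cyc (h : D.Om X) (h' : D.Om Y) (h'' : D.Om Z) :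
    trace (X * Y * Z) = trace (Y * Z * X) := by
  simp only [trace, diag, mul_apply, Finset.sum_mul]
  rw [Finset.sum_comm]
  rw [Finset.sum_congr rfl fun k _ => Finset.sum_comm, Finset.sum_comm]
  refine Finset.sum_congr rfl fun j _ => ?_
  rw [Finset.sum_comm]
  refine Finset.sum_congr rfl fun i _ => Finset.sum_congr rfl fun k _ => ?_
  rw [D.od_anti (h i j) (h' j k), neg_mul, mul_assoc, D.od_anti (h i j) (h'' k i), mul_neg, neg_neg,
    mul_assoc]

variable (D) {f g h : (Matrix n n R)ˣ}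

/-- the matrix of an invertible matrix of functions -/
def u : (Matrix n n R)ˣ →* Matrix n n A := D.m.toMonoidHom.comp (Units.coeHom _)

theorem u_eq (f : (Matrix n n R)ˣ) : D.u f = D.m f := rfl

theorem u_mul_inv (f : (Matrix n n R)ˣ) : D.u f * D.u f⁻¹ = 1 := by
  rw [← map_mul, mul_inv_cancel, map_one]

theorem u_inv_mul (f : (Matrix n n R)ˣ) : D.u f⁻¹ * D.u f = 1 := by
  rw [← map_mul, inv_mul_cancel, map_one]

theorem u_cancel (f : (Matrix n n R)ˣ) (X : Matrix n n A) : D.u f * (D.u f⁻¹ * X) = X := by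
  rw [← mul_assoc, u_mul_inv, one_mul]

theorem u_cancel' (f : (Matrix n n R)ˣ) (X : Matrix n n A) : D.u f⁻¹ * (D.u f * X) = X := by
  rw [← mul_assoc, u_inv_mul, one_mul]

theorem tr_u (f : (Matrix n n R)ˣ) (X : Matrix n n A) : trace (D.u f * X) = trace (X * D.u f) :=
  D.tr_m _ _

theorem tr_conj (f : (Matrix n n R)ˣ) (X : Matrix n n A) :
    trace (D.u f * X * D.u f⁻¹) = trace X := by
  rw [← tr_u, u_cancel']

/-- `f⁻¹ df` -/
def L (f : (Matrix n n R)ˣ) : Matrix n n A := D.u f⁻¹ * D.dm f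

/-- `df f⁻¹` -/
def Rr (f : (Matrix n n R)ˣ) : Matrix n n A := D.dm f * D.u f⁻¹

theorem om_L (f : (Matrix n n R)ˣ) : D.Om (D.L f) := (om_dm _).left _

theorem om_R (f : (Matrix n n R)ˣ) : D.Om (D.Rr f) := (om_dm _).right _

theorem dm_mul' (f g : (Matrix n n R)ˣ) :
    D.dm (f * g : (Matrix n n R)ˣ) = D.dm f * D.u g + D.u f * D.dm g := D.dm_mul _ _

theorem L_mul (f g : (Matrix n n R)ˣ) : D.L (f * g) = D.u g⁻¹ * D.L f * D.u g + D.L g := by
  simp only [L, dm_mul', _root_.mul_inv_rev, map_mul, mul_add, mul_assoc, u_cancel']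

theorem R_mul (f g : (Matrix n n R)ˣ) : D.Rr (f * g) = D.Rr f + D.u f * D.Rr g * D.u f⁻¹ := by
  simp only [Rr, dm_mul', _root_.mul_inv_rev, map_mul, add_mul, mul_assoc, u_cancel]

theorem R_eq (f : (Matrix n n R)ˣ) : D.Rr f = D.u f * D.L f * D.u f⁻¹ := by
  rw [L, u_cancel, Rr]

theorem L_one : D.L (1 : (Matrix n n R)ˣ) = 0 := by rw [L, Units.val_one, dm_one, mul_zero]

theorem R_one : D.Rr (1 : (Matrix n n R)ˣ) = 0 := by rw [Rr, Units.val_one, dm_one, zero_mul]

theorem R_inv (f : (Matrix n n R)ˣ) : D.Rr f⁻¹ = -D.L f := by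
  have h := D.R_mul f⁻¹ f
  rw [inv_mul_cancel, R_one, inv_inv, D.R_eq f, ← mul_assoc, u_cancel', mul_assoc, u_inv_mul,
    mul_one] at h
  exact eq_neg_of_add_eq_zero_left h.symm

theorem L_inv (f : (Matrix n n R)ˣ) : D.L f⁻¹ = -D.Rr f := by
  rw [← neg_neg (D.L f⁻¹), ← R_inv, inv_inv]

/-- the cocycle -/
def c (f g : (Matrix n n R)ˣ) : A := trace (D.L f * D.Rr g)

theorem c_coc (f g h : (Matrix n n R)ˣ) : D.c f g + D.c (f * g) h = D.c g h + D.c f (g * h) := by
  have e : trace (D.u g⁻¹ * D.L f * D.u g * D.Rr h) = trace (D.L f * (D.u g * D.Rr h * D.u g⁻¹)) := by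
    rw [mul_assoc, mul_assoc, tr_u]
    simp only [mul_assoc]
  simp only [c, L_mul, R_mul, add_mul, mul_add, trace_add, e]
  abel

theorem c_one_left (f : (Matrix n n R)ˣ) : D.c 1 f = 0 := by rw [c, L_one, zero_mul, trace_zero]

theorem c_one_right (f : (Matrix n n R)ˣ) : D.c f 1 = 0 := by rw [c, R_one, mul_zero, trace_zero]

theorem c_inv (f : (Matrix n n R)ˣ) : D.c f f⁻¹ = 0 := by
  rw [c, R_inv, mul_neg, trace_neg, (D.om_L f).tr_sq, neg_zero]

theorem c_inv' (f : (Matrix n n R)ˣ) : D.c f⁻¹ f = 0 := by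
  have := D.c_inv f⁻¹
  rwa [inv_inv] at this

/-- the constant matrices -/
def K (n : Type*) [Fintype n] [DecidableEq n] : Subgroup (Matrix n n R)ˣ where
  carrier := {f | D.dm (f : Matrix n n R) = 0}
  one_mem' := D.dm_one
  mul_mem' {f g} hf hg := by
    change D.dm ((f * g : (Matrix n n R)ˣ) : Matrix n n R) = 0
    rw [dm_mul', show D.dm f.1 = 0 from hf, show D.dm g.1 = 0 from hg, zero_mul, mul_zero, add_zero]
  inv_mem' {f} hf := by
    have h := D.R_inv f
    rw [L, show D.dm f.1 = 0 from hf, mul_zero, neg_zero, Rr, inv_inv] at h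
    have h2 := congrArg (· * D.u f⁻¹) h
    simp only [mul_assoc, u_mul_inv, mul_one, zero_mul] at h2
    exact h2

variable {D}

theorem L_K (hf : f ∈ D.K n) : D.L f = 0 := by rw [L, show D.dm f.1 = 0 from hf, mul_zero]

theorem R_K (hf : f ∈ D.K n) : D.Rr f = 0 := by rw [Rr, show D.dm f.1 = 0 from hf, zero_mul]

theorem c_K_left (hf : f ∈ D.K n) (g : (Matrix n n R)ˣ) : D.c f g = 0 := by
  rw [c, L_K hf, zero_mul, trace_zero]

theorem c_K_right (f : (Matrix n n R)ˣ) (hg : g ∈ D.K n) : D.c f g = 0 := by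
  rw [c, R_K hg, mul_zero, trace_zero]

variable (D) in
/-- matrices which only depend on the function `z` -/
def One (z : R) (f : Matrix n n R) : Prop := ∀ i j, ∃ a, D.d (f i j) = D.φ a * D.d z

theorem One.c {z : R} (hf : D.One z (f : Matrix n n R)) (hg : D.One z (g : Matrix n n R)) :
    D.c f g = 0 := by
  choose a ha using hf
  choose b hb using hg
  have e : D.dm f.1 * D.dm g.1 = 0 := by
    ext i j
    rw [mul_apply]
    refine Finset.sum_eq_zero fun k _ => ?_
    rw [dm_apply, dm_apply, ha, hb, mul_assoc, ← mul_assoc (D.d z), ← D.cm, mul_assoc,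
      D.od_sq (D.d_mem z), mul_zero, mul_zero]
  rw [Dv.c, L, Rr, mul_assoc, ← mul_assoc (D.dm f.1), e, zero_mul, mul_zero, trace_zero]

end Dv

/-- the central extension -/
@[ext] structure Gh (D : Dv R A) (n : Type*) [Fintype n] [DecidableEq n] where
  g : (Matrix n n R)ˣ
  a : A

namespace Gh

variable {D}

instance : Mul (Gh D n) := ⟨fun F G => ⟨F.g * G.g, F.a + G.a + D.c F.g G.g⟩⟩
instance : One (Gh D n) := ⟨⟨1, 0⟩⟩
instance : Inv (Gh D n) := ⟨fun F => ⟨F.g⁻¹, -F.a⟩⟩

@[simp] theorem mul_g (F G : Gh D n) : (F * G).g = F.g * G.g := rfl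
@[simp] theorem mul_a (F G : Gh D n) : (F * G).a = F.a + G.a + D.c F.g G.g := rfl
@[simp] theorem one_g : (1 : Gh D n).g = 1 := rfl
@[simp] theorem one_a : (1 : Gh D n).a = 0 := rfl
@[simp] theorem inv_g (F : Gh D n) : F⁻¹.g = F.g⁻¹ := rfl
@[simp] theorem inv_a (F : Gh D n) : F⁻¹.a = -F.a := rfl

instance : Group (Gh D n) := Group.ofLeftAxioms
  (fun F G H => Gh.ext (mul_assoc _ _ _) (by
    have := D.c_coc F.g G.g H.g
    simp only [mul_a, mul_g]
    calc _ = F.a + G.a + H.a + (D.c F.g G.g + D.c (F.g * G.g) H.g) := by abel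
      _ = _ := by rw [this]; abel))
  (fun F => Gh.ext (one_mul _) (by simp [D.c_one_left]))
  fun F => Gh.ext (inv_mul_cancel _) (by simp [D.c_inv'])

/-- the projection -/
def π : Gh D n →* (Matrix n n R)ˣ where
  toFun := g
  map_one' := rfl
  map_mul' _ _ := rfl

/-- the central elements -/
def z (a : A) : Gh D n := ⟨1, a⟩

theorem z_mul (a : A) (F : Gh D n) : z a * F = ⟨F.g, a + F.a⟩ :=
  Gh.ext (one_mul _) (by simp [z, D.c_one_left])

theorem mul_z (a : A) (F : Gh D n) : F * z a = ⟨F.g, a + F.a⟩ :=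
  Gh.ext (mul_one _) (by simp [z, D.c_one_right, add_comm])

theorem z_comm (a : A) (F : Gh D n) : z a * F = F * z a := by rw [z_mul, mul_z]

end Gh

namespace Dv

/-- the section -/
def σ (f : (Matrix n n R)ˣ) : Gh D n := ⟨f, 0⟩

@[simp] theorem σ_g (f : (Matrix n n R)ˣ) : (D.σ f).g = f := rfl
@[simp] theorem σ_a (f : (Matrix n n R)ˣ) : (D.σ f).a = 0 := rfl

theorem σ_inv (f : (Matrix n n R)ˣ) : D.σ f⁻¹ = (D.σ f)⁻¹ := Gh.ext rfl neg_zero.symm

theorem σ_one : D.σ (1 : (Matrix n n R)ˣ) = 1 := rfl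

theorem σ_mul (f g : (Matrix n n R)ˣ) : D.σ f * D.σ g = Gh.z (D.c f g) * D.σ (f * g) := by
  rw [Gh.z_mul]
  exact Gh.ext rfl (by simp)

theorem eq_zσ (F : Gh D n) : F = Gh.z F.a * D.σ F.g := by
  rw [Gh.z_mul]
  exact Gh.ext rfl (by simp)

end Dv

end Vale.Agent.P275OM
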